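import Vale.Agent.P272.F.R.Defs

/-! P272 F/R/LipT (TASK). Helper names start with `rlipt_`. For fixed `j k`: `K = e j '' {x | In j 3 x ∧ In k 3 x}` is compact (`In j 3` is the image of `closedBall 0 3` under `symm`; `T2Space`), contained in the open set `U = {z ∈ target j | symm z ∈ source k ∧ ‖e k (symm z)‖ < 4}`; `IsCompact.exists_thickening_subset_open` gives `2 d`; `T = e k ∘ symm` is complex differentiable on `ball y (2 d)` (`A.hol`) and maps it into `ball (T y) 8`; Schwarz lemma (`Complex.dist_le_div_mul_dist_of_mapsTo_ball`, on the line through `y` and `z` if only the one variable form exists). Then a common `d`, `L` over the finitely many pairs (`Filter.eventually_all`, or `L = 4 / d`). -/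

open Metric Set Filter Topology Complex MeasureTheory
open scoped ContDiff

noncomputable section

namespace Vale.Agent.P272.R

variable {n : ℕ} {X : Type} [TopologicalSpace X] [T2Space X] [CompactSpace X] {A : Atl n X}

theorem rlipt_cpt (A : Atl n X) (j : Fin A.N) : IsCompact {x | A.In j 3 x} := by
  have h1 : closedBall (0 : E n) 3 ⊆ (A.e j).target :=
    (closedBall_subset_closedBall (by norm_num)).trans (A.tgt j)
  have h2 : {x | A.In j 3 x} = (A.e j).symm '' closedBall 0 3 := by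
    refine Subset.antisymm (fun x hx => ⟨A.e j x, mem_closedBall_zero_iff.2 hx.2,
      (A.e j).left_inv hx.1⟩) ?_
    rintro _ ⟨y, hy, rfl⟩
    refine ⟨(A.e j).map_target (h1 hy), ?_⟩
    rw [(A.e j).right_inv (h1 hy)]
    exact mem_closedBall_zero_iff.1 hy
  rw [h2]
  exact (isCompact_closedBall _ _).image_of_continuousOn ((A.e j).continuousOn_symm.mono h1)

theorem rlipt_pair (A : Atl n X) (j k : Fin A.N) : ∀ᶠ δ in 𝓝[>] (0 : ℝ), ∀ x, A.In j 3 x →
    A.In k 3 x → ball (A.e j x) δ ⊆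
      (A.e j).target ∩ (A.e j).symm ⁻¹' ((A.e k).source ∩ A.e k ⁻¹' ball 0 4) := by
  have hK : IsCompact (A.e j '' ({x | A.In j 3 x} ∩ {x | A.In k 3 x})) :=
    ((rlipt_cpt A j).inter_right (rlipt_cpt A k).isClosed).image_of_continuousOn
      ((A.e j).continuousOn.mono fun x hx => hx.1.1)
  obtain ⟨δ, hδ, h⟩ := hK.exists_thickening_subset_open
    ((A.e j).isOpen_inter_preimage_symm ((A.e k).isOpen_inter_preimage (s := ball 0 4) isOpen_ball))
    (by
      rintro _ ⟨x, ⟨h1, h2⟩, rfl⟩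
      refine ⟨(A.e j).map_source h1.1, ?_⟩
      rw [mem_preimage, (A.e j).left_inv h1.1]
      exact ⟨h2.1, mem_ball_zero_iff.2 (h2.2.trans_lt (by norm_num))⟩)
  filter_upwards [Ioc_mem_nhdsGT hδ] with η hη x h1 h2
  have h3 : A.e j x ∈ A.e j '' ({x | A.In j 3 x} ∩ {x | A.In k 3 x}) := ⟨x, ⟨h1, h2⟩, rfl⟩
  exact (ball_subset_ball hη.2).trans ((ball_subset_thickening h3 δ).trans h)

theorem lipT (A : Atl n X) : ∃ L d : ℝ, 1 ≤ L ∧ 0 < d ∧ ∀ j k x, A.In j 3 x → A.In k 3 x →
    ∀ z, ‖z - A.e j x‖ ≤ d → (A.e j).symm z ∈ (A.e k).source ∧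
      ‖A.e k ((A.e j).symm z) - A.e k x‖ ≤ L * ‖z - A.e j x‖ := by
  obtain ⟨δ, h, hδ⟩ := ((eventually_all.2 fun j => eventually_all.2 fun k =>
    rlipt_pair A j k).and self_mem_nhdsWithin).exists
  have hδ0 : 0 < δ := hδ
  refine ⟨8 / δ + 1, δ / 2, le_add_of_nonneg_left (by positivity), half_pos hδ0,
    fun j k x hj hk z hz => ?_⟩
  have h1 := h j k x hj hk
  have hz' : z ∈ ball (A.e j x) δ := mem_ball_iff_norm.2 (hz.trans_lt (half_lt_self hδ0))
  refine ⟨(h1 hz').2.1, ?_⟩
  have h2 : DifferentiableOn ℂ (A.e k ∘ (A.e j).symm) (ball (A.e j x) δ) := fun y hy => by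
    have h3 := A.hol k j _ (h1 hy).2.1 ((A.e j).map_target (h1 hy).1)
    rw [(A.e j).right_inv (h1 hy).1] at h3
    exact h3.differentiableWithinAt
  have h3 : (A.e k ∘ (A.e j).symm) (A.e j x) = A.e k x := by
    rw [Function.comp_apply, (A.e j).left_inv hj.1]
  have h4 := Complex.dist_le_div_mul_dist_of_mapsTo_ball (R₂ := 8) h2 (fun y hy => by
    rw [h3, mem_closedBall_iff_norm]
    have h5 : ‖(A.e k ∘ (A.e j).symm) y‖ < 4 := mem_ball_zero_iff.1 (h1 hy).2.2
    exact (norm_sub_le _ _).trans (by linarith [hk.2])) hz'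
  rw [h3, dist_eq_norm, dist_eq_norm] at h4
  exact h4.trans (mul_le_mul_of_nonneg_right (by linarith) (norm_nonneg _))

theorem loc_usc {φ : X → ℝ} (h : UpperSemicontinuous φ) (j : Fin A.N) :
    UpperSemicontinuousOn (A.loc φ j) (closedBall 0 4) := by
  intro y hy c hc
  exact ((A.e j).continuousOn_symm.mono (A.tgt j) y hy).tendsto.eventually (h _ c hc)

theorem visc_tch {u : Fin A.N → E n → ℝ} {F : Fin A.N → E n → ℝ → L n → ℝ} {φ : X → ℝ}
    (h : Atl.Visc u F φ) {j : Fin A.N} {z : E n} (hz : ‖z‖ < 4) {q : E n → ℝ}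
    (ht : Tch (A.loc φ j) q z) (V : L n) :
    F j z (A.loc φ j z) V ≤ trL (fun y => u j y + q y) z V := by
  have h1 : z ∈ (A.e j).target := A.tgt j (mem_closedBall_zero_iff.2 hz.le)
  have h2 := h.2 j ((A.e j).symm z) q ((A.e j).map_target h1)
  rw [(A.e j).right_inv h1] at h2
  exact h2 hz ht.1 ht.2 V

end Vale.Agent.P272.R
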