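import Vale.Agent.P272.F.R.Defs

/-! P272 F/R/SC (TASK). Helper names start with `rsc_`. `le_csSup`, `csSup_le`; `sc_att`: `UpperSemicontinuousOn.exists_isMaxOn` on the compact ball (usc minus continuous is usc); `sc_lip`: `|‖y - z‖ ^ 2 - ‖y' - z‖ ^ 2| ≤ ‖y - y'‖ (‖y‖ + ‖y'‖ + 7)`; `sc_tch`: for `z'` near `z`, `sc_ge` at `y' = z' + (y - z)`. -/

open Metric Set Filter Topology Complex MeasureTheory
open scoped ContDiff

noncomputable section

namespace Vale.Agent.P272.R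

variable {n : ℕ}

variable {g : E n → ℝ} {e K : ℝ}

theorem sc_ge (he : 0 < e) (hb : ∀ z, ‖z‖ ≤ 4 → |g z| ≤ K) (y : E n) {z : E n} (hz : ‖z‖ ≤ 7 / 2) :
    g z - ‖y - z‖ ^ 2 / e ≤ sc g e y := by
  refine le_csSup ⟨K, ?_⟩ ⟨z, mem_closedBall_zero_iff.2 hz, rfl⟩
  rintro _ ⟨w, hw, rfl⟩
  have h1 := (le_abs_self _).trans (hb w ((mem_closedBall_zero_iff.1 hw).trans (by norm_num)))
  have h2 : 0 ≤ ‖y - w‖ ^ 2 / e := by positivity
  linarith

theorem sc_att (he : 0 < e) (hb : ∀ z, ‖z‖ ≤ 4 → |g z| ≤ K)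
    (hu : UpperSemicontinuousOn g (closedBall 0 4)) {y : E n} (hy : ‖y‖ ≤ 7 / 2) :
    ∃ z, ‖z‖ ≤ 7 / 2 ∧ sc g e y = g z - ‖y - z‖ ^ 2 / e ∧ ‖y - z‖ ^ 2 ≤ 2 * K * e := by
  have hc : ContinuousOn (fun z : E n => -(‖y - z‖ ^ 2 / e)) (closedBall 0 (7 / 2)) := by
    fun_prop
  obtain ⟨z, hz, hm⟩ := UpperSemicontinuousOn.exists_isMaxOn
    (nonempty_closedBall.2 (by norm_num)) (isCompact_closedBall (0 : E n) (7 / 2))
    ((hu.mono (closedBall_subset_closedBall (by norm_num))).add hc.upperSemicontinuousOn)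
  have hz' := mem_closedBall_zero_iff.1 hz
  have h1 : sc g e y = g z - ‖y - z‖ ^ 2 / e := by
    refine le_antisymm (csSup_le ((nonempty_closedBall.2 (by norm_num)).image _) ?_)
      (sc_ge he hb y hz')
    rintro _ ⟨w, hw, rfl⟩
    simpa only [sub_eq_add_neg] using isMaxOn_iff.1 hm w hw
  refine ⟨z, hz', h1, ?_⟩
  have h2 := sc_ge he hb y hy
  have h3 := abs_le.1 (hb y (by linarith))
  have h4 := abs_le.1 (hb z (by linarith))
  rw [h1, sub_self, norm_zero] at h2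
  rw [← div_le_iff₀ he]
  simp only [ne_eq, OfNat.ofNat_ne_zero, not_false_eq_true, zero_pow, zero_div, sub_zero] at h2
  linarith

theorem sc_lip (he : 0 < e) (hb : ∀ z, ‖z‖ ≤ 4 → |g z| ≤ K) (y y' : E n) :
    sc g e y ≤ sc g e y' + ‖y - y'‖ * (‖y‖ + ‖y'‖ + 7) / e := by
  refine csSup_le ((nonempty_closedBall.2 (by norm_num)).image _) ?_
  rintro _ ⟨w, hw, rfl⟩
  have hw' := mem_closedBall_zero_iff.1 hw
  have h1 := sc_ge he hb y' hw'
  have h2 : ‖y' - w‖ - ‖y - w‖ ≤ ‖y - y'‖ := by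
    have := norm_sub_norm_le (y' - w) (y - w)
    rwa [sub_sub_sub_cancel_right, norm_sub_rev y' y] at this
  have h3 := norm_sub_le y w
  have h4 := norm_sub_le y' w
  have h5 : ‖y' - w‖ ^ 2 - ‖y - w‖ ^ 2 ≤ ‖y - y'‖ * (‖y‖ + ‖y'‖ + 7) := by
    rw [sq_sub_sq, mul_comm]
    exact mul_le_mul h2 (by linarith) (by positivity) (norm_nonneg _)
  have h6 := div_le_div_of_nonneg_right h5 he.le
  rw [sub_div] at h6
  linarith

theorem sc_cont (he : 0 < e) (hb : ∀ z, ‖z‖ ≤ 4 → |g z| ≤ K) : Continuous (sc g e) := by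
  refine continuous_iff_continuousAt.2 fun y₀ => tendsto_iff_dist_tendsto_zero.2 ?_
  have hc : Continuous fun y : E n => ‖y - y₀‖ * (‖y‖ + ‖y₀‖ + 7) / e := by fun_prop
  refine squeeze_zero (fun _ => dist_nonneg) (fun y => ?_) (by simpa using hc.tendsto y₀)
  have h1 := sc_lip he hb y y₀
  have h2 := sc_lip he hb y₀ y
  rw [norm_sub_rev, add_comm ‖y₀‖] at h2
  rw [Real.dist_eq, abs_le]
  constructor <;> linarith

theorem sc_tch (he : 0 < e) (hb : ∀ z, ‖z‖ ≤ 4 → |g z| ≤ K) {y z : E n} {q : E n → ℝ}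
    (hz : ‖z‖ < 7 / 2) (hs : sc g e y = g z - ‖y - z‖ ^ 2 / e) (ht : Tch (sc g e) q y) :
    Tch g (fun w => q (w + (y - z))) z := by
  have hc : Continuous fun w : E n => w + (y - z) := by fun_prop
  have hT : Tendsto (fun w : E n => w + (y - z)) (𝓝 z) (𝓝 y) := by simpa using hc.tendsto z
  refine ⟨(hT.eventually ht.1).mono fun w hw =>
    hw.comp w (contDiffAt_id.add contDiffAt_const), ?_⟩
  filter_upwards [hT.eventually ht.2, continuous_norm.continuousAt.eventually_lt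
    continuousAt_const hz] with w h1 h2
  have h3 := sc_ge he hb (w + (y - z)) h2.le
  rw [add_sub_cancel_left] at h3
  rw [add_sub_cancel]
  linarith

end Vale.Agent.P272.R
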