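import Vale.Agent.P272.F.R.Heat
import Vale.Agent.P272.F.R.LipT
import Vale.Agent.P272.F.R.SC

/-! P272 F/R/Loc (TASK). Helper names start with `rloc_`. `scv`: `δ₁` from `F.uc (K + 1) (η / 2)`, `δ₂` from `rt_uc` (all `j`), `δ = min (min δ₁ δ₂) 1 / 2`, `e₀` with `2 K e₀ ≤ min δ (1/8) ^ 2`; `sc_att`, `sc_tch`, `visc_tch` at `z`, `rt_add`, `rt_shift`; `F j y' r V ≤ F j y' (g z + δ) V ≤ F j z (g z) V + η / 2 hs V` (`sc y ≤ g z`). `locv`: `δ = δ' / 2`, `heat` for `f = sc` with `s` such that `2 s ≤ min δ' (1 / 2)` and `2 s * 15 / e ≤ min κ (δ' / 2)` (`sc_lip`), `k = F j y r V - trL (θ.u j) y V - η hs V`. -/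

open Metric Set Filter Topology Complex MeasureTheory
open scoped ContDiff

noncomputable section

namespace Vale.Agent.P272.R

variable {n : ℕ} {X : Type} [TopologicalSpace X] [T2Space X] [CompactSpace X] {A : Atl n X}

variable {θ : A.Pot} {F : A.Rhs} {φ : X → ℝ} {K : ℝ}

theorem rloc_min {ι : Type} [Finite ι] (d : ι → ℝ) (hd : ∀ i, 0 < d i) :
    ∃ δ : ℝ, 0 < δ ∧ ∀ i, δ ≤ d i := by
  cases isEmpty_or_nonempty ι with
  | inl h => exact ⟨1, one_pos, fun i => isEmptyElim i⟩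
  | inr h =>
    obtain ⟨i, hi⟩ := Finite.exists_min d
    exact ⟨d i, hd i, hi⟩

theorem rloc_lip {g : E n → ℝ} {e K : ℝ} (he : 0 < e) (hb : ∀ z, ‖z‖ ≤ 4 → |g z| ≤ K)
    {y y' : E n} {t : ℝ} (hy : ‖y‖ ≤ 4) (hy' : ‖y'‖ ≤ 4) (ht : ‖y - y'‖ ≤ t) :
    sc g e y ≤ sc g e y' + t * 15 / e := by
  have h1 := sc_lip he hb y y'
  have h2 : ‖y - y'‖ * (‖y‖ + ‖y'‖ + 7) ≤ t * 15 :=
    mul_le_mul ht (by linarith) (by positivity) ((norm_nonneg _).trans ht)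
  have h3 := div_le_div_of_nonneg_right h2 he.le
  linarith

theorem scv (h : Atl.Visc θ.u F.F φ) (hb : ∀ x, |φ x| ≤ K) {η : ℝ} (hη : 0 < η) :
    ∃ δ e₀ : ℝ, 0 < δ ∧ 0 < e₀ ∧ ∀ e, 0 < e → e ≤ e₀ → ∀ j (y y' : E n) (q : E n → ℝ) (r : ℝ) V,
      ‖y‖ ≤ 3 → ‖y'‖ ≤ 4 → ‖y - y'‖ ≤ δ → Tch (sc (A.loc φ j) e) q y →
      r ≤ sc (A.loc φ j) e y + δ → F.F j y' r V - trL (θ.u j) y' V - η * hs V ≤ trL q y V := by
  obtain ⟨δ₁, hδ₁, huc⟩ := F.uc (K + 1) (η / 2) (by positivity)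
  have hex : ∀ j, ∃ δ : ℝ, 0 < δ ∧ ∀ y y' : E n, ‖y‖ ≤ 4 → ‖y'‖ ≤ 4 → ‖y - y'‖ ≤ δ →
      ∀ V, trL (θ.u j) y V ≤ trL (θ.u j) y' V + η / 2 * hs V := fun j =>
    rt_uc (A.e j).open_target (A.tgt j) (θ.sm j) (by positivity)
  choose d hd0 hd using hex
  obtain ⟨δ₂, hδ₂, hd2⟩ := rloc_min d hd0
  obtain ⟨δ, hδ, h1, h2, h3⟩ : ∃ δ : ℝ, 0 < δ ∧ 2 * δ ≤ δ₁ ∧ 2 * δ ≤ δ₂ ∧ δ ≤ 1 / 8 := by
    refine ⟨min (min δ₁ δ₂ / 2) (1 / 8), by positivity, ?_, ?_, min_le_right _ _⟩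
    · have := min_le_left (min δ₁ δ₂ / 2) (1 / 8 : ℝ)
      have := min_le_left δ₁ δ₂
      linarith
    · have := min_le_left (min δ₁ δ₂ / 2) (1 / 8 : ℝ)
      have := min_le_right δ₁ δ₂
      linarith
  refine ⟨δ, δ ^ 2 / (2 * (|K| + 1)), hδ, by positivity, ?_⟩
  intro e he he0 j y y' q r V hy hy' hyy ht hr
  have hbg : ∀ z : E n, ‖z‖ ≤ 4 → |A.loc φ j z| ≤ K := fun z _ => hb _
  obtain ⟨z, hz, hsz, hyz⟩ := sc_att he hbg (loc_usc h.1 j) (y := y) (by linarith)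
  have hyz' : ‖y - z‖ ≤ δ := by
    have h4 : e * (2 * (|K| + 1)) ≤ δ ^ 2 := (le_div_iff₀ (by positivity)).1 he0
    have h5 : 2 * K * e ≤ e * (2 * (|K| + 1)) := by nlinarith [le_abs_self K]
    exact (pow_le_pow_iff_left₀ (norm_nonneg _) hδ.le two_ne_zero).1 (by linarith)
  have hz3 : ‖z‖ ≤ 3 + 1 / 8 := by
    have : ‖z‖ ≤ ‖y‖ + ‖y - z‖ := by
      have := norm_sub_le y (y - z)
      rwa [sub_sub_cancel] at this
    linarith
  have hzy : ‖z - y'‖ ≤ 2 * δ := by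
    have := norm_sub_le_norm_sub_add_norm_sub z y y'
    rw [norm_sub_rev z y] at this
    linarith
  have ht' := sc_tch he hbg (by linarith) hsz ht
  have hv := visc_tch h (by linarith : ‖z‖ < 4) ht' V
  have hzt : z ∈ (A.e j).target := A.tgt j (by rw [mem_closedBall_zero_iff]; linarith)
  have hu2 : ContDiffAt ℝ 2 (θ.u j) z :=
    ((θ.sm j).contDiffAt ((A.e j).open_target.mem_nhds hzt)).of_le (WithTop.coe_le_coe.2 le_top)
  have hq2 : ContDiffAt ℝ 2 (fun w => q (w + (y - z))) z :=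
    ht'.1.self_of_nhds.of_le (WithTop.coe_le_coe.2 le_top)
  rw [rt_add hu2 hq2, rt_shift, add_sub_cancel] at hv
  have hg := hbg z (by linarith)
  have hle : r ≤ A.loc φ j z + δ := by
    have : 0 ≤ ‖y - z‖ ^ 2 / e := by positivity
    linarith
  have hm : F.F j y' r V ≤ F.F j y' (A.loc φ j z + δ) V := F.mono j y' V hy' hle
  have hu := huc j z y' (A.loc φ j z) (A.loc φ j z + δ) V (by linarith) hy' (by linarith)
    (by
      rw [abs_le] at hg ⊢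
      constructor <;> linarith [hg.1, hg.2]) (by linarith)
    (by
      rw [sub_add_cancel_left, abs_neg, abs_of_pos hδ]
      linarith)
  have hc := hd j z y' (by linarith) hy' (by linarith [hd2 j]) V
  linarith

theorem locv (h : Atl.Visc θ.u F.F φ) (hb : ∀ x, |φ x| ≤ K) {η : ℝ} (hη : 0 < η) :
    ∃ δ e₀ : ℝ, 0 < δ ∧ 0 < e₀ ∧ ∀ e, 0 < e → e ≤ e₀ → ∀ κ, 0 < κ → ∀ j, ∃ v : E n → ℝ,
      ContDiff ℝ ∞ v ∧ (∀ y, ‖y‖ ≤ 3 → |v y - sc (A.loc φ j) e y| ≤ κ) ∧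
      ∀ (y : E n) (r : ℝ) V, ‖y‖ ≤ 5 / 2 → r ≤ sc (A.loc φ j) e y + δ →
        F.F j y r V ≤ trL (θ.u j) y V + trL v y V + η * hs V := by
  obtain ⟨δ', e₀, hδ', he₀, hsc⟩ := scv h hb hη
  refine ⟨δ' / 2, e₀, by positivity, he₀, ?_⟩
  intro e he he0 κ hκ j
  have hbg : ∀ z : E n, ‖z‖ ≤ 4 → |A.loc φ j z| ≤ K := fun z _ => hb _
  obtain ⟨s, hs0, h1, h2, h3, h4⟩ : ∃ s : ℝ, 0 < s ∧ 2 * s ≤ δ' ∧ 2 * s ≤ 1 / 2 ∧
      2 * s * 15 / e ≤ κ ∧ 2 * s * 15 / e ≤ δ' / 2 := by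
    have a1 := min_le_left (min δ' (1 / 2) / 2) (min κ (δ' / 2) * e / 30)
    have a2 := min_le_right (min δ' (1 / 2) / 2) (min κ (δ' / 2) * e / 30)
    have a3 := min_le_left δ' (1 / 2)
    have a4 := min_le_right δ' (1 / 2)
    have a5 := mul_le_mul_of_nonneg_right (min_le_left κ (δ' / 2)) he.le
    have a6 := mul_le_mul_of_nonneg_right (min_le_right κ (δ' / 2)) he.le
    refine ⟨min (min δ' (1 / 2) / 2) (min κ (δ' / 2) * e / 30), by positivity, by linarith,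
      by linarith, ?_, ?_⟩
    · rw [div_le_iff₀ he]
      linarith
    · rw [div_le_iff₀ he]
      linarith
  obtain ⟨v, hv, hup, hlo, htr⟩ := heat (sc_cont he hbg) hs0
  have hnear : ∀ y z : E n, z ∈ ball y (2 * s) → ‖z - y‖ ≤ 2 * s ∧ ‖z‖ ≤ ‖y‖ + 1 / 2 := by
    intro y z hz
    rw [mem_ball, dist_eq_norm] at hz
    have := norm_le_norm_add_norm_sub' z y
    constructor <;> linarith
  refine ⟨v, hv, fun y hy => ?_, fun y r V hy hr => ?_⟩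
  · have b1 := hup y (sc (A.loc φ j) e y + κ) fun z hz => by
      obtain ⟨c1, c2⟩ := hnear y z (ball_subset_ball (by linarith) hz)
      have := rloc_lip he hbg (y := z) (y' := y) (by linarith) (by linarith) c1
      linarith
    have b2 := hlo y (sc (A.loc φ j) e y - κ) fun z hz => by
      obtain ⟨c1, c2⟩ := hnear y z (ball_subset_ball (by linarith) hz)
      rw [norm_sub_rev] at c1
      have := rloc_lip he hbg (y := y) (y' := z) (by linarith) (by linarith) c1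
      linarith
    rw [abs_le]
    constructor <;> linarith
  · have := htr y V (F.F j y r V - trL (θ.u j) y V - η * hs V) fun z hz q hq => by
      obtain ⟨c1, c2⟩ := hnear y z hz
      have c3 : ‖y - z‖ ≤ 2 * s := by rwa [norm_sub_rev]
      have := rloc_lip he hbg (y := y) (y' := z) (by linarith) (by linarith) c3
      exact hsc e he he0 j z y q r V (by linarith) (by linarith) (by linarith) hq (by linarith)
    linarith

end Vale.Agent.P272.R
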