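import Vale.Agent.P272.F.R.Lev

/-! P272 F/R/Tr (TASK). Helper names start with `rtr_`. The lemmas of `Lev` summed over the frame; `rt_one`: `V = (innerSL ℂ (eb i₀)).smulRight a` with `i₀ = ⟨0, hn⟩`. `rt_tch`: `q - h` has a local minimum. `rt_bd`, `rt_uc`: `fderiv (fderiv u)` is continuous on the compact ball (`ContDiffOn.fderiv_of_isOpen`, `IsCompact.uniformContinuousOn_of_continuous`), `rl_le`, `rl_dist`. -/

open Metric Set Filter Topology Complex MeasureTheory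
open scoped ContDiff

noncomputable section

namespace Vale.Agent.P272.R

variable {n : ℕ}

variable {u v : E n → ℝ} {y : E n}

theorem rt_congr (h : u =ᶠ[𝓝 y] v) (V : L n) : trL u y V = trL v y V := by
  exact Finset.sum_congr rfl fun i _ => rl_congr h _

theorem rt_add (hu : ContDiffAt ℝ 2 u y) (hv : ContDiffAt ℝ 2 v y) (V : L n) :
    trL (fun z => u z + v z) y V = trL u y V + trL v y V := by
  unfold trL
  rw [← Finset.sum_add_distrib]
  exact Finset.sum_congr rfl fun i _ => rl_add hu hv _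

theorem rt_mul (c : ℝ) (hu : ContDiffAt ℝ 2 u y) (V : L n) :
    trL (fun z => c * u z) y V = c * trL u y V := by
  unfold trL
  rw [Finset.mul_sum]
  exact Finset.sum_congr rfl fun i _ => rl_mul c hu _

theorem rt_sub (hu : ContDiffAt ℝ 2 u y) (hv : ContDiffAt ℝ 2 v y) (V : L n) :
    trL (fun z => u z - v z) y V = trL u y V - trL v y V := by
  unfold trL
  rw [← Finset.sum_sub_distrib]
  exact Finset.sum_congr rfl fun i _ => rl_sub hu hv _

theorem rt_const (c : ℝ) (V : L n) : trL (fun _ => c) y V = 0 := by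
  exact Finset.sum_eq_zero fun i _ => rl_const c _

theorem rt_sum {ι : Type} (s : Finset ι) {f : ι → E n → ℝ} (hf : ∀ i ∈ s, ContDiffAt ℝ 2 (f i) y)
    (V : L n) : trL (fun z => ∑ i ∈ s, f i z) y V = ∑ i ∈ s, trL (f i) y V := by
  unfold trL
  rw [Finset.sum_comm]
  exact Finset.sum_congr rfl fun i _ => rl_sum s hf _

theorem rt_shift (u : E n → ℝ) (c y : E n) (V : L n) :
    trL (fun z => u (z + c)) y V = trL u (y + c) V := by
  exact Finset.sum_congr rfl fun i _ => rl_shift u c y _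

theorem rt_min (hu : ContDiffAt ℝ 2 u y) (h : IsLocalMin u y) (V : L n) : 0 ≤ trL u y V := by
  exact Finset.sum_nonneg fun i _ => rl_min hu h _

theorem rt_sq (c y : E n) (V : L n) : trL (fun z => ‖z - c‖ ^ 2) y V = hs V := by
  exact Finset.sum_congr rfl fun i _ => rl_sq c y _

theorem rt_hs (V : L n) : 0 ≤ hs V := by
  exact Finset.sum_nonneg fun i _ => sq_nonneg _

theorem rt_zero {V : L n} (h : hs V = 0) (u : E n → ℝ) (y : E n) : trL u y V = 0 := by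
  refine Finset.sum_eq_zero fun i _ => ?_
  have h1 := (Finset.sum_eq_zero_iff_of_nonneg (fun i _ => sq_nonneg ‖V (eb i)‖)).1 h i
    (Finset.mem_univ i)
  rw [norm_eq_zero.1 (pow_eq_zero_iff two_ne_zero |>.1 h1), rl_zero]

theorem rt_one (hn : 1 ≤ n) (a : E n) :
    ∃ V : L n, hs V = ‖a‖ ^ 2 ∧ ∀ (u : E n → ℝ) (y : E n), trL u y V = levi u y a := by
  have key : ∀ i : Fin n, ((innerSL ℂ (eb (⟨0, hn⟩ : Fin n))).smulRight a) (eb i) =
      if i = ⟨0, hn⟩ then a else 0 := by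
    intro i
    rw [ContinuousLinearMap.smulRight_apply, innerSL_apply_apply, eb, eb,
      EuclideanSpace.inner_single_left]
    by_cases h : i = ⟨0, hn⟩
    · simp [h]
    · simp [h, Ne.symm h]
  refine ⟨(innerSL ℂ (eb (⟨0, hn⟩ : Fin n))).smulRight a, ?_, fun u y => ?_⟩
  · unfold hs
    rw [Finset.sum_eq_single (⟨0, hn⟩ : Fin n)]
    · rw [key, if_pos rfl]
    · intro i _ h
      rw [key, if_neg h, norm_zero, zero_pow two_ne_zero]
    · intro h
      exact absurd (Finset.mem_univ _) h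
  · unfold trL
    rw [Finset.sum_eq_single (⟨0, hn⟩ : Fin n)]
    · rw [key, if_pos rfl]
    · intro i _ h
      rw [key, if_neg h, rl_zero]
    · intro h
      exact absurd (Finset.mem_univ _) h

theorem rt_tch {h q : E n → ℝ} (hh : ContDiffAt ℝ 2 h y) (ht : Tch h q y) (V : L n) :
    trL h y V ≤ trL q y V := by
  have hq : ContDiffAt ℝ 2 q y := ht.1.self_of_nhds.of_le (WithTop.coe_le_coe.2 (le_top (a := (2 : ℕ∞))))
  have hm : IsLocalMin (fun z => q z - h z) y := by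
    filter_upwards [ht.2] with z hz
    linarith
  have h1 := rt_min (hq.sub hh) hm V
  rw [rt_sub hq hh] at h1
  linarith

theorem rtr_sm {U : Set (E n)} (hU : IsOpen U) (hu : ContDiffOn ℝ ∞ u U) :
    ContDiffOn ℝ ∞ (fderiv ℝ (fderiv ℝ u)) U :=
  ((contDiffOn_infty_iff_fderiv_of_isOpen hU).1
    ((contDiffOn_infty_iff_fderiv_of_isOpen hU).1 hu).2).2

theorem rtr_bd {W : Type} [NormedAddCommGroup W] [NormedSpace ℝ W] {f : E n → W} {U : Set (E n)}
    (h4 : closedBall 0 4 ⊆ U) (hf : ContDiffOn ℝ ∞ f U) : ∃ C : ℝ, ∀ y, ‖y‖ ≤ 4 → ‖f y‖ ≤ C := by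
  obtain ⟨C, hC⟩ := (isCompact_closedBall (0 : E n) 4).exists_bound_of_continuousOn
    (hf.continuousOn.mono h4)
  exact ⟨C, fun y hy => hC y (mem_closedBall_zero_iff.2 hy)⟩

theorem rtr_uc {W : Type} [NormedAddCommGroup W] [NormedSpace ℝ W] {f : E n → W} {U : Set (E n)}
    (h4 : closedBall 0 4 ⊆ U) (hf : ContDiffOn ℝ ∞ f U) {η : ℝ} (hη : 0 < η) :
    ∃ δ : ℝ, 0 < δ ∧ ∀ y y', ‖y‖ ≤ 4 → ‖y'‖ ≤ 4 → ‖y - y'‖ ≤ δ → ‖f y - f y'‖ ≤ η := by
  have h1 := (isCompact_closedBall (0 : E n) 4).uniformContinuousOn_of_continuous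
    (hf.continuousOn.mono h4)
  obtain ⟨δ, hδ, h2⟩ := Metric.uniformContinuousOn_iff_le.1 h1 η hη
  refine ⟨δ, hδ, fun y y' hy hy' hd => ?_⟩
  have h3 := h2 y (mem_closedBall_zero_iff.2 hy) y' (mem_closedBall_zero_iff.2 hy')
    (by rw [dist_eq_norm]; exact hd)
  rwa [dist_eq_norm] at h3

theorem rt_bd {U : Set (E n)} (hU : IsOpen U) (h4 : closedBall 0 4 ⊆ U) (hu : ContDiffOn ℝ ∞ u U) :
    ∃ C : ℝ, 0 ≤ C ∧ ∀ y, ‖y‖ ≤ 4 → ∀ a, |levi u y a| ≤ C * ‖a‖ ^ 2 := by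
  obtain ⟨C, hC⟩ := rtr_bd h4 (rtr_sm hU hu)
  refine ⟨max C 0, le_max_right _ _, fun y hy a => (rl_le u y a).trans ?_⟩
  exact mul_le_mul_of_nonneg_right
    ((hC y hy).trans (le_max_left _ _)) (sq_nonneg _)

theorem rt_uc {U : Set (E n)} (hU : IsOpen U) (h4 : closedBall 0 4 ⊆ U) (hu : ContDiffOn ℝ ∞ u U)
    {η : ℝ} (hη : 0 < η) : ∃ δ : ℝ, 0 < δ ∧ ∀ y y', ‖y‖ ≤ 4 → ‖y'‖ ≤ 4 → ‖y - y'‖ ≤ δ →
      ∀ V, trL u y V ≤ trL u y' V + η * hs V := by
  obtain ⟨δ, hδ, h2⟩ := rtr_uc h4 (rtr_sm hU hu) hη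
  refine ⟨δ, hδ, fun y y' hy hy' hd V => ?_⟩
  have h3 := h2 y y' hy hy' hd
  unfold trL hs
  rw [Finset.mul_sum, ← Finset.sum_add_distrib]
  refine Finset.sum_le_sum fun i _ => ?_
  have h5 := (abs_le.1 ((rl_dist u y y' (V (eb i))).trans
    (mul_le_mul_of_nonneg_right h3 (sq_nonneg _)))).2
  linarith

end Vale.Agent.P272.R
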