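import Vale.Agent.P272.F.R.Three
import Vale.Agent.P272.F.R.LipT
import Vale.Agent.P272.F.R.SC
import Vale.Agent.P272.F.R.Tr

/-! P272 F/R/Osc (TASK). Helper names start with `rosc_`. `qpsh`: `visc_tch` with the `V` of `rt_one`, `F.lo K`, `rt_bd` for the finitely many `θ.u j`, `rl_add`. `osc`: `R ≤ 1 / 2` with `(C + 1) R ^ 2 ≤ κ / 2`, then `s₀` with `L s₀ ≤ R`, `s₀ < R`, `2 K log (L ^ 2) / log (R ^ 2 / s ^ 2) ≤ κ / 2` (`s₀ = R * exp (-T)`, `T` large); `three`. `close`: `sc_att` in the chart `j` gives `z` with `‖y_j - z‖ ≤ √(2 K e) ≤ d`, `x' = symm z`, `‖e k x' - e k x‖ ≤ L √(2 K e)`; `osc` in the chart `k` with `s = σ √e`, `σ ^ 2 = κ / 2`, ratio `max 1 (L √(2 K) / σ)`, `m = sc_k + κ / 2` (`sc_ge`, `s ≤ 1 / 2`). -/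

open Metric Set Filter Topology Complex MeasureTheory
open scoped ContDiff

noncomputable section

namespace Vale.Agent.P272.R

variable {n : ℕ} {X : Type} [TopologicalSpace X] [T2Space X] [CompactSpace X] {A : Atl n X}

variable {θ : A.Pot} {F : A.Rhs} {φ : X → ℝ} {K : ℝ}

theorem qpsh (hn : 1 ≤ n) (h : Atl.Visc θ.u F.F φ) (hb : ∀ x, |φ x| ≤ K) : ∃ C : ℝ, 0 ≤ C ∧
    ∀ j z q, ‖z‖ < 4 → Tch (A.loc φ j) q z → ∀ a, -C * ‖a‖ ^ 2 ≤ levi q z a := by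
  obtain ⟨C₁, hC₁⟩ := F.lo K
  choose c hc0 hc using fun j => rt_bd (A.e j).open_target (A.tgt j) (θ.sm j)
  have two : (2 : WithTop ℕ∞) ≤ ∞ := WithTop.coe_le_coe.2 (le_top (a := (2 : ℕ∞)))
  refine ⟨max C₁ 0 + ∑ j, c j, add_nonneg (le_max_right _ _) (Finset.sum_nonneg fun j _ => hc0 j),
    fun j z q hz ht a => ?_⟩
  obtain ⟨V, hV, hV'⟩ := rt_one hn a
  have h1 := visc_tch h hz ht V
  have h2 := hC₁ j z (A.loc φ j z) V hz.le (hb _)
  have h3 : ContDiffAt ℝ ∞ (θ.u j) z := (θ.sm j).contDiffAt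
    ((A.e j).open_target.mem_nhds (A.tgt j (mem_closedBall_zero_iff.2 hz.le)))
  rw [hV', rl_add (h3.of_le two) (ht.1.self_of_nhds.of_le two)] at h1
  rw [hV] at h2
  have h4 := (abs_le.1 (hc j z hz.le a)).2
  have h5 : c j ≤ ∑ j, c j := Finset.single_le_sum (fun j _ => hc0 j) (Finset.mem_univ j)
  have h6 := mul_le_mul_of_nonneg_right (add_le_add (le_max_left C₁ 0) h5) (sq_nonneg ‖a‖)
  linarith

theorem osc (hn : 1 ≤ n) (h : Atl.Visc θ.u F.F φ) (hb : ∀ x, |φ x| ≤ K) {κ L : ℝ} (hκ : 0 < κ)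
    (hL : 1 ≤ L) : ∃ s₀ : ℝ, 0 < s₀ ∧ ∀ s, 0 < s → s ≤ s₀ → ∀ j (y : E n) (m : ℝ), ‖y‖ ≤ 3 →
      (∀ z ∈ closedBall y s, A.loc φ j z ≤ m) → ∀ z ∈ closedBall y (L * s), A.loc φ j z ≤ m + κ := by
  obtain ⟨C, hC, hq⟩ := qpsh hn h hb
  have hb' : ∀ x, |φ x| ≤ max K 0 := fun x => (hb x).trans (le_max_left _ _)
  have hK : 0 ≤ max K 0 := le_max_right _ _
  generalize max K 0 = K' at hb' hK
  obtain ⟨R, hR0, hR1, hR2⟩ : ∃ R : ℝ, 0 < R ∧ R ≤ 1 / 2 ∧ (C + 1) * R ^ 2 ≤ κ / 2 := by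
    refine ⟨min (1 / 2) (κ / (2 * (C + 1))), by positivity, min_le_left _ _, ?_⟩
    have h1 := min_le_left (1 / 2) (κ / (2 * (C + 1)))
    have h2 := min_le_right (1 / 2) (κ / (2 * (C + 1)))
    have h3 : 0 < min (1 / 2) (κ / (2 * (C + 1))) := by positivity
    generalize min (1 / 2) (κ / (2 * (C + 1))) = R at h1 h2 h3
    rw [le_div_iff₀ (by positivity)] at h2
    nlinarith [mul_pos h3 (show 0 < C + 1 by positivity)]
  have hl : 0 ≤ Real.log L := Real.log_nonneg hL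
  obtain ⟨T, hT0, hT1, hT2⟩ : ∃ T : ℝ, 0 < T ∧ Real.log L ≤ T ∧ 4 * K' * Real.log L ≤ κ * T := by
    have h1 : 0 ≤ 4 * K' * Real.log L / κ := by positivity
    refine ⟨Real.log L + 1 + 4 * K' * Real.log L / κ, by positivity, by linarith, ?_⟩
    rw [mul_add, mul_div_cancel₀ _ hκ.ne']
    nlinarith
  refine ⟨R * Real.exp (-T), by positivity, fun s hs hs' j y m hy hm z hz => ?_⟩
  rw [mem_closedBall, dist_eq_norm] at hz
  rcases le_total ‖z - y‖ s with h1 | h1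
  · exact (hm z (by rwa [mem_closedBall, dist_eq_norm])).trans (by linarith)
  have h2 : s * Real.exp T ≤ R := by
    rwa [Real.exp_neg, ← div_eq_mul_inv, le_div_iff₀ (Real.exp_pos T)] at hs'
  have h3 : L ≤ Real.exp T := by
    rw [← Real.exp_log (zero_lt_one.trans_le hL)]
    exact Real.exp_le_exp.2 hT1
  have h4 : 1 < Real.exp T := Real.one_lt_exp_iff.2 hT0
  have h5 : ∀ w, ‖w - y‖ ≤ R → ‖w‖ < 4 := fun w hw => by
    linarith [norm_le_norm_add_norm_sub' w y, norm_sub_rev w y]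
  have h6 := three (w := A.loc φ j) (y := y) (R := R) (K := K') (m := m) hs (by nlinarith) hC
    ((loc_usc h.1 j).mono fun w hw => mem_closedBall_zero_iff.2 (h5 w (by
      rwa [mem_closedBall, dist_eq_norm] at hw)).le) (fun w _ => hb' _)
    (fun w hw q => hq j w q (h5 w (by rw [mem_ball, dist_eq_norm] at hw; exact hw.le))) hm h1
    (by nlinarith)
  have h7 : Real.log (‖z - y‖ ^ 2 / s ^ 2) ≤ 2 * Real.log L := by
    have h0 : 0 < ‖z - y‖ := hs.trans_le h1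
    rw [← div_pow, Real.log_pow]
    exact mul_le_mul_of_nonneg_left (Real.log_le_log (by positivity) ((div_le_iff₀ hs).2 hz))
      (by norm_num)
  have h8 : 2 * T ≤ Real.log (R ^ 2 / s ^ 2) := by
    rw [← div_pow, Real.log_pow]
    refine mul_le_mul_of_nonneg_left ((Real.le_log_iff_exp_le (by positivity)).2 ?_) (by norm_num)
    rw [le_div_iff₀ hs]
    linarith
  have h9 : 2 * K' * (Real.log (‖z - y‖ ^ 2 / s ^ 2) / Real.log (R ^ 2 / s ^ 2)) ≤ κ / 2 := by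
    rw [← mul_div_assoc, div_le_iff₀ (by linarith)]
    nlinarith [mul_le_mul_of_nonneg_left h7 hK, mul_le_mul_of_nonneg_left h8 hκ.le]
  linarith

theorem close (hn : 1 ≤ n) (h : Atl.Visc θ.u F.F φ) (hb : ∀ x, |φ x| ≤ K) {κ : ℝ} (hκ : 0 < κ) :
    ∃ e₁ : ℝ, 0 < e₁ ∧ ∀ e, 0 < e → e ≤ e₁ → ∀ j k x, A.In j 3 x → A.In k 3 x →
      sc (A.loc φ j) e (A.e j x) ≤ sc (A.loc φ k) e (A.e k x) + κ := by
  obtain ⟨L, d, hL, hd, hT⟩ := lipT A
  have hb' : ∀ x, |φ x| ≤ max K 1 := fun x => (hb x).trans (le_max_left _ _)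
  have hK : 0 < max K 1 := zero_lt_one.trans_le (le_max_right _ _)
  generalize max K 1 = K' at hb' hK
  obtain ⟨σ, hσ, hσ2⟩ : ∃ σ : ℝ, 0 < σ ∧ σ ^ 2 = κ / 2 :=
    ⟨√(κ / 2), by positivity, Real.sq_sqrt (by positivity)⟩
  obtain ⟨b, hb0, hb2⟩ : ∃ b : ℝ, 0 < b ∧ b ^ 2 = 2 * K' :=
    ⟨√(2 * K'), by positivity, Real.sq_sqrt (by positivity)⟩
  obtain ⟨s₀, hs₀, hosc⟩ := osc hn h hb' (half_pos hκ) (le_max_left 1 (L * b / σ))
  refine ⟨min (d / b) (min s₀ (1 / 2) / σ) ^ 2, by positivity, fun e he he' j k x hj hk => ?_⟩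
  obtain ⟨t, ht, rfl⟩ : ∃ t : ℝ, 0 < t ∧ e = t ^ 2 := ⟨√e, by positivity, (Real.sq_sqrt he.le).symm⟩
  have h1 := (pow_le_pow_iff_left₀ ht.le (by positivity) two_ne_zero).1 he'
  have h2 := (le_div_iff₀ hb0).1 (h1.trans (min_le_left _ _))
  have h3 := (le_div_iff₀ hσ).1 (h1.trans (min_le_right _ _))
  obtain ⟨z, -, hz1, hz2⟩ := sc_att (g := A.loc φ j) he (fun w _ => hb' _) (loc_usc h.1 j)
    (y := A.e j x) (hj.2.trans (by norm_num))
  have h4 : ‖z - A.e j x‖ ≤ t * b := by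
    rw [norm_sub_rev]
    refine (pow_le_pow_iff_left₀ (norm_nonneg _) (by positivity) two_ne_zero).1 ?_
    rw [mul_pow, hb2]
    linarith
  obtain ⟨h5, h6⟩ := hT j k x hj hk z (h4.trans h2)
  have h7 := hosc (t * σ) (by positivity) (h3.trans (min_le_left _ _)) k (A.e k x)
    (sc (A.loc φ k) (t ^ 2) (A.e k x) + κ / 2) hk.2 (fun w hw => by
      rw [mem_closedBall, dist_eq_norm] at hw
      have h8 := sc_ge (g := A.loc φ k) he (fun w _ => hb' _) (A.e k x) (z := w) (by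
        linarith [norm_le_norm_add_norm_sub' w (A.e k x), norm_sub_rev w (A.e k x), hk.2,
          min_le_right s₀ (1 / 2)])
      have h9 : ‖A.e k x - w‖ ^ 2 / t ^ 2 ≤ κ / 2 := by
        rw [div_le_iff₀ he, norm_sub_rev, ← hσ2, ← mul_pow, mul_comm]
        exact pow_le_pow_left₀ (norm_nonneg _) hw 2
      linarith) (A.e k ((A.e j).symm z)) (by
      rw [mem_closedBall, dist_eq_norm]
      have h8 := (div_le_iff₀ hσ).1 (le_max_right 1 (L * b / σ))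
      have h9 := mul_le_mul_of_nonneg_left h4 (zero_le_one.trans hL)
      nlinarith [mul_le_mul_of_nonneg_left h8 ht.le])
  have h10 : A.loc φ k (A.e k ((A.e j).symm z)) = A.loc φ j z :=
    congrArg φ ((A.e k).left_inv h5)
  have h11 : 0 ≤ ‖A.e j x - z‖ ^ 2 / t ^ 2 := by positivity
  linarith

end Vale.Agent.P272.R
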