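import Vale.Agent.P272.F.R.Glue
import Vale.Agent.P272.F.R.Osc
import Vale.Agent.P272.F.R.Loc

/-! P272 F/R/Main (helper71). -/

open Metric Set Filter Topology Complex MeasureTheory
open scoped ContDiff

noncomputable section

namespace Vale.Agent.P272.R

variable {n : ℕ} {X : Type} [TopologicalSpace X] [T2Space X] [CompactSpace X] {A : Atl n X}

theorem _root_.Vale.Agent.P272.reg (hn : 1 ≤ n) (θ ρ : A.Pot) (hρ : ρ.Pos) (F : A.Rhs) {φ : X → ℝ} {B B' t : ℝ}
    (h : Atl.Visc θ.u F.F φ) (hb : ∀ x, -B ≤ φ x ∧ φ x ≤ B') (ht : 0 < t) :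
    ∃ ψ, Atl.Sub θ.u F.F ρ t ψ ∧ ∀ x, φ x - t ≤ ψ x := by
  obtain ⟨K, hK⟩ : ∃ K : ℝ, K = max B B' := ⟨_, rfl⟩
  have hbK : ∀ x, |φ x| ≤ K := fun x => by
    rw [abs_le, hK]
    exact ⟨(neg_le_neg (le_max_left _ _)).trans (hb x).1, (hb x).2.trans (le_max_right _ _)⟩
  have hbl : ∀ j (z : E n), ‖z‖ ≤ 4 → |A.loc φ j z| ≤ K := fun j z _ => hbK _
  obtain ⟨C, hC, hlo⟩ := rho_lo hρ
  choose χ hχ hχ0 hχ1 hχ2 using rcut A
  choose D hD hDb using fun j => sm_bd hρ (hχ j)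
  obtain ⟨δ, e₀, hδ, he₀, hv⟩ := locv h hbK (η := t / 4 / C) (by positivity)
  have e1 : ∀ᶠ κ in 𝓝[>] (0 : ℝ), ∀ j, κ < t / 16 / D j := eventually_all.2 fun j =>
    nhdsWithin_le_nhds (gt_mem_nhds (div_pos (by positivity) (hD j)))
  have e2 : ∀ᶠ κ in 𝓝[>] (0 : ℝ), κ < δ / 7 := nhdsWithin_le_nhds (gt_mem_nhds (by positivity))
  obtain ⟨κ, ⟨k1, k2⟩, k3⟩ := ((e1.and e2).and self_mem_nhdsWithin).exists
  have hκ : 0 < κ := k3
  obtain ⟨e₁, he₁, hc⟩ := close hn h hbK hκ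
  have he : 0 < min e₀ e₁ := lt_min he₀ he₁
  choose v v1 v2 v3 using hv _ he (min_le_left _ _) κ hκ
  have hc' := hc _ he (min_le_right _ _)
  generalize min e₀ e₁ = e at *
  choose W W1 W2 W3 using fun j => sm_ext (A := A) j (v1 j) (-K)
  have up : ∀ {j : Fin A.N} {x : X} {a b : ℝ}, a ≤ b → A.In j a x → A.In j b x :=
    fun hab hx => ⟨hx.1, hx.2.trans hab⟩
  have hφ : ∀ j x, A.In j 3 x → φ x ≤ sc (A.loc φ j) e (A.e j x) := by
    intro j x hx
    have h1 := sc_ge he (hbl j) (A.e j x) (z := A.e j x) (by linarith [hx.2])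
    rwa [sub_self, norm_zero, zero_pow two_ne_zero, zero_div, sub_zero, Atl.loc,
      (A.e j).left_inv hx.1] at h1
  have hW : ∀ j x, A.In j 2 x → W j x = v j (A.e j x) := by
    intro j x hx
    have h1 := (W2 j x hx).self_of_nhds
    rwa [Atl.loc, (A.e j).left_inv hx.1] at h1
  have hWle : ∀ i j x, A.In j 3 x → W i x ≤ sc (A.loc φ j) e (A.e j x) + 2 * κ := by
    intro i j x hx
    rcases W3 i x with h1 | ⟨h1, h2⟩
    · linarith [hφ j x hx, (abs_le.1 (hbK x)).1]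
    · linarith [(abs_le.1 (v2 i _ h1.2)).2, hc' i j x h1 hx]
  have hsm : ∀ j, A.Sm fun x => W j x + 4 * κ * χ j x :=
    fun j i => (W1 j i).add (contDiffOn_const.mul (hχ j i))
  have hk : ∀ x, ∃ k, A.In k 1 x := fun x => (A.cov x).imp fun k hk => ⟨hk.1, hk.2.le⟩
  obtain ⟨ψ, h1, h2⟩ := glue (θ := θ) (F := F) hρ hsm hκ ht (G := fun j x => A.In j 2 x)
    (fun j x hx i r hr => ineq_of (hsm j) hx.1 fun V => by
      have a1 := hWle i j x (up (by norm_num) hx)
      have a2 : 4 * κ * χ i x ≤ 4 * κ := mul_le_of_le_one_right (by positivity) (hχ0 i x).2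
      have a3 := v3 j (A.e j x) r V (by linarith [hx.2]) (by linarith)
      have a4 : trL (A.loc (fun x => W j x + 4 * κ * χ j x) j) (A.e j x) V =
          trL (v j) (A.e j x) V + 4 * κ * trL (A.loc (χ j) j) (A.e j x) V := by
        rw [← rt_congr (W2 j x hx), ← rt_mul _ (sm_at (hχ j) hx.1),
          ← rt_add (sm_at (W1 j) hx.1) (contDiffAt_const.mul (sm_at (hχ j) hx.1))]
        rfl
      obtain ⟨a5, a6⟩ := hDb j j x V hx.1
      have a7 : hs V ≤ C * trL (ρ.u j) (A.e j x) V := by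
        rw [hs, trL, Finset.mul_sum]
        exact Finset.sum_le_sum fun l _ => hlo j _ _ (by linarith [hx.2])
      have a8 : t / 4 / C * hs V ≤ t / 4 * trL (ρ.u j) (A.e j x) V := by
        refine (mul_le_mul_of_nonneg_left a7 (by positivity)).trans (le_of_eq ?_)
        field_simp
      have a9 : κ * D j ≤ t / 16 := ((lt_div_iff₀ (hD j)).1 (k1 j)).le
      have b1 := mul_le_mul_of_nonneg_left (abs_le.1 a6).1 hκ.le
      have b2 := mul_le_mul_of_nonneg_right a9 a5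
      rw [a4]
      nlinarith)
    (fun x => by
      obtain ⟨k, hk⟩ := hk x
      refine ⟨k, up (by norm_num) hk, fun j => ?_⟩
      by_cases hj : A.In j 2 x
      · exact Or.inl hj
      · right
        have a1 := hWle j k x (up (by norm_num) hk)
        have a2 := (abs_le.1 (v2 k (A.e k x) (by linarith [hk.2]))).1
        rw [hχ2 j x hj, hχ1 k x hk, hW k x (up (by norm_num) hk)]
        linarith)
  refine ⟨ψ, h1, fun x => ?_⟩
  obtain ⟨k, hk⟩ := hk x
  have a1 := h2 x k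
  have a2 := (abs_le.1 (v2 k (A.e k x) (by linarith [hk.2]))).1
  have a3 := hφ k x (up (by norm_num) hk)
  rw [hχ1 k x hk, hW k x (up (by norm_num) hk)] at a1
  linarith

end Vale.Agent.P272.R
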