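import Vale.Agent.P272.F.R.Defs

/-! P272 F/R/Lev (TASK). Helper names start with `rlev_`. Calculus of `levi` and `trL` (geometry free).
`fderiv (fderiv (u + v)) = ...`: `fderiv_add` holds near `y` (`ContDiffAt.eventually`), `Filter.EventuallyEq.fderiv_eq`.
`rl_line`: chain rule twice for `s ↦ u (y + s • a)`. `rl_min`: `rl_line` and the one variable second derivative test (`isLocalMin` implies `0 ≤ deriv (deriv f) 0`; or `IsLocalMin` contradiction with `isLocalMax_of_deriv_deriv_neg`-type lemmas / Taylor; grep the repository for `deriv_deriv` / second derivative at a minimum). `rl_sq`: `rl_line`, `‖y - c + s a‖ ^ 2` is a quadratic in `s`. -/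

open Metric Set Filter Topology Complex MeasureTheory
open scoped ContDiff

noncomputable section

namespace Vale.Agent.P272.R

variable {n : ℕ}

variable {u v : E n → ℝ} {y : E n}

theorem rl_congr (h : u =ᶠ[𝓝 y] v) (a : E n) : levi u y a = levi v y a := by
  unfold levi
  rw [h.fderiv.fderiv_eq]

theorem rlev_d (hu : ContDiffAt ℝ 2 u y) : DifferentiableAt ℝ (fderiv ℝ u) y :=
  (hu.fderiv_right (m := 1) (by norm_num)).differentiableAt one_ne_zero

theorem rl_add (hu : ContDiffAt ℝ 2 u y) (hv : ContDiffAt ℝ 2 v y) (a : E n) :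
    levi (fun z => u z + v z) y a = levi u y a + levi v y a := by
  have h1 : fderiv ℝ (fun z => u z + v z) =ᶠ[𝓝 y] fun z => fderiv ℝ u z + fderiv ℝ v z := by
    filter_upwards [hu.eventually (by simp), hv.eventually (by simp)] with z h1 h2
    exact fderiv_fun_add (h1.differentiableAt two_ne_zero) (h2.differentiableAt two_ne_zero)
  unfold levi
  rw [h1.fderiv_eq, fderiv_fun_add (rlev_d hu) (rlev_d hv)]
  simp only [add_apply]
  ring

theorem rl_mul (c : ℝ) (hu : ContDiffAt ℝ 2 u y) (a : E n) :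
    levi (fun z => c * u z) y a = c * levi u y a := by
  have h1 : fderiv ℝ (fun z => c * u z) =ᶠ[𝓝 y] fun z => c • fderiv ℝ u z := by
    filter_upwards [hu.eventually (by simp)] with z h1
    exact fderiv_const_mul (h1.differentiableAt two_ne_zero) c
  unfold levi
  rw [h1.fderiv_eq, fderiv_fun_const_smul (rlev_d hu)]
  simp only [smul_apply, smul_eq_mul]
  ring

theorem rl_sub (hu : ContDiffAt ℝ 2 u y) (hv : ContDiffAt ℝ 2 v y) (a : E n) :
    levi (fun z => u z - v z) y a = levi u y a - levi v y a := by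
  have e : (fun z => u z - v z) = fun z => u z + (-1) * v z := by
    funext z; ring
  rw [e, rl_add hu (contDiffAt_const.mul hv), rl_mul _ hv]
  ring

theorem rl_const (c : ℝ) (a : E n) : levi (fun _ => c) y a = 0 := by
  have e : fderiv ℝ (fun _ : E n => c) = fun _ => 0 := by
    funext z; simp
  simp [levi, e]

theorem rl_sum {ι : Type} (s : Finset ι) {f : ι → E n → ℝ} (hf : ∀ i ∈ s, ContDiffAt ℝ 2 (f i) y)
    (a : E n) : levi (fun z => ∑ i ∈ s, f i z) y a = ∑ i ∈ s, levi (f i) y a := by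
  classical
  induction s using Finset.induction_on with
  | empty => simpa using rl_const 0 a
  | insert i s hi ih =>
    have h1 : ∀ j ∈ s, ContDiffAt ℝ 2 (f j) y := fun j hj => hf j (Finset.mem_insert_of_mem hj)
    simp only [Finset.sum_insert hi]
    rw [rl_add (hf i (Finset.mem_insert_self _ _)) (ContDiffAt.sum h1), ih h1]

theorem rl_shift (u : E n → ℝ) (c y a : E n) : levi (fun z => u (z + c)) y a = levi u (y + c) a := by
  have e : fderiv ℝ (fun z => u (z + c)) = fun z => fderiv ℝ u (z + c) := by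
    funext z; exact fderiv_comp_add_right c
  unfold levi
  rw [e, fderiv_comp_add_right c]

theorem rlev_line {V : Type} [NormedAddCommGroup V] [NormedSpace ℝ V] {u : V → ℝ} {y : V}
    (hu : ContDiffAt ℝ 2 u y) (a : V) :
    fderiv ℝ (fderiv ℝ u) y a a = deriv (deriv fun s : ℝ => u (y + s • a)) 0 := by
  have hl : ∀ s : ℝ, HasDerivAt (fun s : ℝ => y + s • a) a s := fun s => by
    have := ((hasDerivAt_id s).smul_const a).const_add y
    rwa [one_smul] at this
  have h0 : y + (0 : ℝ) • a = y := by simp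
  have ht : Tendsto (fun s : ℝ => y + s • a) (𝓝 0) (𝓝 y) := by
    have := (hl 0).continuousAt.tendsto
    rwa [h0] at this
  have h1 : (deriv fun s : ℝ => u (y + s • a)) =ᶠ[𝓝 0] fun s => fderiv ℝ u (y + s • a) a := by
    filter_upwards [ht.eventually (hu.eventually (by simp))] with s hs
    exact ((hs.differentiableAt two_ne_zero).hasFDerivAt.comp_hasDerivAt s (hl s)).deriv
  have h2 : HasFDerivAt (fderiv ℝ u) (fderiv ℝ (fderiv ℝ u) y) (y + (0 : ℝ) • a) := by
    rw [h0]
    exact ((hu.fderiv_right (m := 1) (by norm_num)).differentiableAt one_ne_zero).hasFDerivAt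
  have h3 : HasDerivAt (fun s : ℝ => fderiv ℝ u (y + s • a)) (fderiv ℝ (fderiv ℝ u) y a) 0 :=
    HasFDerivAt.comp_hasDerivAt (l := fderiv ℝ u) (f := fun s : ℝ => y + s • a) 0 h2 (hl 0)
  have h4 := h3.clm_apply (hasDerivAt_const (0 : ℝ) a)
  rw [h1.deriv_eq, h4.deriv]
  simp

theorem rl_line (hu : ContDiffAt ℝ 2 u y) (a : E n) :
    fderiv ℝ (fderiv ℝ u) y a a = deriv (deriv fun s : ℝ => u (y + s • a)) 0 := by
  exact rlev_line hu a

theorem rlev_test {f : ℝ → ℝ} (hc : ContinuousAt f 0) (h : IsLocalMin f 0) :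
    0 ≤ deriv (deriv f) 0 := by
  by_contra h1
  have h2 := isLocalMax_of_deriv_deriv_neg (not_le.1 h1) h.deriv_eq_zero hc
  have h3 : f =ᶠ[𝓝 0] fun _ => f 0 := by
    filter_upwards [h, h2] with s a b
    exact le_antisymm b a
  apply h1
  rw [h3.deriv.deriv_eq]
  simp

theorem rlev_min (hu : ContDiffAt ℝ 2 u y) (h : IsLocalMin u y) (a : E n) :
    0 ≤ fderiv ℝ (fderiv ℝ u) y a a := by
  rw [rl_line hu]
  have h0 : y + (0 : ℝ) • a = y := by simp
  have hc : ContinuousAt (fun s : ℝ => y + s • a) 0 := by fun_prop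
  refine rlev_test (ContinuousAt.comp (g := u) (by rw [h0]; exact hu.continuousAt) hc) ?_
  exact IsLocalMin.comp_continuous (f := u) (by rw [h0]; exact h) hc

theorem rl_min (hu : ContDiffAt ℝ 2 u y) (h : IsLocalMin u y) (a : E n) : 0 ≤ levi u y a := by
  exact div_nonneg (add_nonneg (rlev_min hu h _) (rlev_min hu h _)) (by norm_num)

theorem rl_sq (c y a : E n) : levi (fun z => ‖z - c‖ ^ 2) y a = ‖a‖ ^ 2 := by
  have h1 : fderiv ℝ (fun z : E n => ‖z - c‖ ^ 2) =
      fun z => (2 : ℝ) • (innerSL ℝ z - innerSL ℝ c) := by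
    funext z
    have h2 := ((hasStrictFDerivAt_norm_sq (z - c)).hasFDerivAt.comp z
      ((hasFDerivAt_id z).sub_const c)).fderiv
    refine h2.trans ?_
    ext w
    simp
  have h3 : HasFDerivAt (fun z : E n => (2 : ℝ) • (innerSL ℝ z - innerSL ℝ c))
      ((2 : ℝ) • (innerSL ℝ : E n →L[ℝ] E n →L[ℝ] ℝ)) y :=
    (((innerSL ℝ : E n →L[ℝ] E n →L[ℝ] ℝ).hasFDerivAt).sub_const _).const_smul (2 : ℝ)
  unfold levi
  rw [h1, h3.fderiv]
  change (2 * inner ℝ a a + 2 * inner ℝ (I • a) (I • a)) / 4 = _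
  rw [real_inner_self_eq_norm_sq, real_inner_self_eq_norm_sq, norm_smul, norm_I, one_mul]
  ring

theorem rl_zero (u : E n → ℝ) (y : E n) : levi u y 0 = 0 := by
  simp [levi]

theorem rlev_bd (B : E n →L[ℝ] E n →L[ℝ] ℝ) (a : E n) :
    |(B a a + B (I • a) (I • a)) / 4| ≤ ‖B‖ * ‖a‖ ^ 2 := by
  have h1 := B.le_opNorm₂ a a
  have h2 := B.le_opNorm₂ (I • a) (I • a)
  rw [norm_smul, norm_I, one_mul] at h2
  rw [Real.norm_eq_abs, abs_le] at h1 h2
  have h3 : 0 ≤ ‖B‖ * ‖a‖ * ‖a‖ := by positivity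
  have h4 : ‖B‖ * ‖a‖ ^ 2 = ‖B‖ * ‖a‖ * ‖a‖ := by ring
  rw [abs_le, h4]
  constructor <;> linarith [h1.1, h1.2, h2.1, h2.2]

theorem rl_le (u : E n → ℝ) (y a : E n) : |levi u y a| ≤ ‖fderiv ℝ (fderiv ℝ u) y‖ * ‖a‖ ^ 2 := by
  exact rlev_bd _ a

theorem rl_dist (u : E n → ℝ) (y y' a : E n) : |levi u y a - levi u y' a| ≤
    ‖fderiv ℝ (fderiv ℝ u) y - fderiv ℝ (fderiv ℝ u) y'‖ * ‖a‖ ^ 2 := by
  refine le_of_eq_of_le ?_ (rlev_bd _ a)
  simp only [levi, sub_apply]
  exact congrArg abs (by ring)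

end Vale.Agent.P272.R
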