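import Vale.Agent.P272.F.R.Poly

/-! P272 F/R/Dir (TASK). Helper names start with `rdir_`. `vmax`: for `ε > 0` take a maximum point of `f - (w - ε ‖y - x‖ ^ 2)` on the closed ball; it is not interior (`trL` of the test function is `< k`), so `f - w ≤ ε r ^ 2`.
`dirP`: wlog `p ∈ PS n (m + 2)`; the linear map `T q = trL ((‖y‖ ^ 2 - r ^ 2) q) V` from `PS n m` to itself is injective (`vmax` with `rt_tch` for `± (‖y‖ ^ 2 - r ^ 2) q`, so `q = 0` on the open ball, `AnalyticOnNhd.eq_of_eventuallyEq`), hence surjective (`LinearMap.injective_iff_surjective`); `h = p - (‖y‖ ^ 2 - r ^ 2) q` with `T q = trL p V`. -/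

open Metric Set Filter Topology Complex MeasureTheory
open scoped ContDiff

noncomputable section

namespace Vale.Agent.P272.R

variable {n : ℕ}

theorem rdir_two {u : E n → ℝ} (hu : ContDiff ℝ ∞ u) (y : E n) : ContDiffAt ℝ 2 u y :=
  (hu.of_le (WithTop.coe_le_coe.2 le_top : ((2 : ℕ∞) : WithTop ℕ∞) ≤ ∞)).contDiffAt

theorem vmax {f w : E n → ℝ} {x : E n} {r k : ℝ} {V : L n} (hV : 0 < hs V)
    (hf : ContinuousOn f (closedBall x r)) (h : ∀ y ∈ ball x r, ∀ q, Tch f q y → k ≤ trL q y V)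
    (hw : ContDiff ℝ ∞ w) (hw0 : ∀ y ∈ ball x r, trL w y V ≤ k)
    (hb : ∀ y ∈ sphere x r, f y ≤ w y) : ∀ y ∈ closedBall x r, f y ≤ w y := by
  intro y hy
  refine le_of_forall_pos_le_add fun δ hδ => ?_
  have hε : 0 < δ / (r ^ 2 + 1) := by positivity
  have hεr : δ / (r ^ 2 + 1) * r ^ 2 ≤ δ := by
    rw [div_mul_eq_mul_div, div_le_iff₀ (by positivity)]
    nlinarith
  generalize δ / (r ^ 2 + 1) = ε at hε hεr
  have hn : ContDiff ℝ ∞ fun z : E n => ‖z - x‖ ^ 2 := (contDiff_id.sub contDiff_const).norm_sq ℂ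
  have hn' : ContDiff ℝ ∞ fun z : E n => ε * ‖z - x‖ ^ 2 := contDiff_const.mul hn
  have hq : ContDiff ℝ ∞ fun z : E n => w z - ε * ‖z - x‖ ^ 2 := hw.sub hn'
  obtain ⟨z, hz, hm⟩ := (isCompact_closedBall x r).exists_isMaxOn ⟨y, hy⟩
    (hf.sub hq.continuous.continuousOn)
  have hzs : z ∈ sphere x r := by
    by_contra hc
    have hzb : z ∈ ball x r := lt_of_le_of_ne hz hc
    have h1 := h z hzb _ ⟨Eventually.of_forall fun _ => hq.contDiffAt,
      hm.isLocalMax (mem_of_superset (isOpen_ball.mem_nhds hzb) ball_subset_closedBall)⟩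
    rw [rt_sub (rdir_two hw z) (rdir_two hn' z), rt_mul _ (rdir_two hn z), rt_sq] at h1
    have h2 := hw0 z hzb
    have h3 := mul_pos hε hV
    linarith
  have h1 : f y - (w y - ε * ‖y - x‖ ^ 2) ≤ f z - (w z - ε * ‖z - x‖ ^ 2) := hm hy
  have h2 := hb z hzs
  have h3 : 0 ≤ ε * ‖y - x‖ ^ 2 := by positivity
  rw [mem_sphere_iff_norm.1 hzs] at h1
  linarith

theorem hm_max {V : L n} (hV : 0 < hs V) {h : E n → ℝ} (hh : Hm V h) {r c : ℝ} (hr : 0 < r)
    (hb : ∀ y, ‖y‖ = r → h y ≤ c) : ∀ y, ‖y‖ ≤ r → h y ≤ c := by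
  intro y hy
  refine vmax (w := fun _ => c) (x := 0) (r := r) (k := 0) hV hh.1.continuous.continuousOn
    (fun z _ q hq => ?_) contDiff_const (fun z _ => (rt_const c V).le)
    (fun z hz => hb z (mem_sphere_zero_iff_norm.1 hz)) y (mem_closedBall_zero_iff.2 hy)
  rw [← hh.2 z]
  exact rt_tch (rdir_two hh.1 z) hq V

theorem rdir_inj {V : L n} (hV : 0 < hs V) {r : ℝ} (hr : 0 < r) {m : ℕ} {q : E n → ℝ}
    (hq : q ∈ PS n m) (h0 : ∀ y, trL (q * fun y : E n => ‖y‖ ^ 2 - r ^ 2) y V = 0) : q = 0 := by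
  have hs := ps_sm (ps_mul hq (ps_sq r))
  have h1 := hm_max hV ⟨hs, h0⟩ (c := 0) hr fun y hy => by simp [hy]
  have h2 := hm_max hV (h := fun z => -1 * (q * fun y : E n => ‖y‖ ^ 2 - r ^ 2) z)
    ⟨contDiff_const.mul hs, fun y => by rw [rt_mul _ (rdir_two hs y), h0, mul_zero]⟩ (c := 0) hr
    fun y hy => by simp [hy]
  refine AnalyticOnNhd.eq_of_eventuallyEq (z₀ := 0) (ps_an hq) analyticOnNhd_const ?_
  filter_upwards [ball_mem_nhds (0 : E n) hr] with y hy
  have hy' : ‖y‖ < r := mem_ball_zero_iff.1 hy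
  have a1 := h1 y hy'.le
  have a2 := h2 y hy'.le
  have a3 : q y * (‖y‖ ^ 2 - r ^ 2) = 0 := by
    simp only [Pi.mul_apply] at a1 a2
    linarith
  have a4 : ‖y‖ ^ 2 < r ^ 2 := pow_lt_pow_left₀ hy' (norm_nonneg _) two_ne_zero
  exact (mul_eq_zero.1 a3).resolve_right (by linarith)

/-- The map `q ↦ trL (q (‖y‖ ^ 2 - r ^ 2))`. -/
def rdir_T (V : L n) (r : ℝ) (m : ℕ) : PS n m →ₗ[ℝ] PS n m where
  toFun q := ⟨fun y => trL (q.1 * fun y : E n => ‖y‖ ^ 2 - r ^ 2) y V,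
    ps_trL (ps_mul q.2 (ps_sq r)) V⟩
  map_add' p q := by
    refine Subtype.ext (funext fun y => ?_)
    have h := rt_add (rdir_two (ps_sm (ps_mul p.2 (ps_sq r))) y)
      (rdir_two (ps_sm (ps_mul q.2 (ps_sq r))) y) V
    refine Eq.trans ?_ h
    refine congrArg (fun u => trL u y V) (funext fun z => ?_)
    simp only [Submodule.coe_add, Pi.mul_apply, Pi.add_apply]
    ring
  map_smul' c q := by
    refine Subtype.ext (funext fun y => ?_)
    have h := rt_mul c (rdir_two (ps_sm (ps_mul q.2 (ps_sq r))) y) V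
    refine Eq.trans ?_ h
    refine congrArg (fun u => trL u y V) (funext fun z => ?_)
    simp only [Submodule.coe_smul, Pi.mul_apply, Pi.smul_apply, smul_eq_mul]
    ring

theorem dirP {V : L n} (hV : 0 < hs V) {r : ℝ} (hr : 0 < r) {m : ℕ} {p : E n → ℝ}
    (hp : p ∈ PS n m) : ∃ h, Hm V h ∧ ∀ y, ‖y‖ = r → h y = p y := by
  have := ps_fin n m
  have hi : Function.Injective (rdir_T V r m) := by
    rw [injective_iff_map_eq_zero]
    intro q hq
    exact Subtype.ext (rdir_inj hV hr q.2 fun y => congrFun (congrArg Subtype.val hq) y)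
  obtain ⟨q, hq⟩ := LinearMap.injective_iff_surjective.1 hi
    ⟨fun y => trL p y V, ps_trL (ps_mono (Nat.le_add_right m 2) hp) V⟩
  have hs := ps_sm (ps_mul q.2 (ps_sq r))
  refine ⟨fun z => p z - (q.1 * fun y : E n => ‖y‖ ^ 2 - r ^ 2) z,
    ⟨(ps_sm hp).sub hs, fun y => ?_⟩, fun y hy => by simp [hy]⟩
  rw [rt_sub (rdir_two (ps_sm hp) y) (rdir_two hs y)]
  exact sub_eq_zero.2 (congrFun (congrArg Subtype.val hq) y).symm

end Vale.Agent.P272.R
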