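import Vale.Agent.P272.F.R.Lam
import Vale.Agent.P272.AtlC

/-! P272 F/R/Cmp (TASK). Helper names start with `rcmp_`. `lam_lower`: take `h` from `dens`, `vmax` with `w z = h (z - x) + ε + k / hs V * (‖z - x‖ ^ 2 - r ^ 2)` evaluated at `z = x`, second half of `IsLam` with `c = -ε`.
`tay_up`: `Q y = g x + D y + D₂ y y / 2 + ε ‖y‖ ^ 2` (`D₂ = fderiv (fderiv g) x`, symmetric: `ContDiffAt.isSymmSndFDerivAt`) lies above `g (x + y)` for small `y` (second order Taylor: the function `Q - g (x + ·) - ε / 2 ‖y‖ ^ 2` has gradient `o(‖y‖)`...; `taylor3` in P272/AtlC after scaling, or mean value twice), `trL Q y V = κ = trL g x V + ε hs V` everywhere (`rl_line`), `h = Q - κ / hs V * (‖y‖ ^ 2 - r ^ 2)`. -/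

open Metric Set Filter Topology Complex MeasureTheory
open scoped ContDiff

noncomputable section

namespace Vale.Agent.P272.R

variable {n : ℕ}

theorem rcmp_le : (2 : WithTop ℕ∞) ≤ ∞ := ENat.LEInfty.out

theorem rcmp_sq (c : E n) : ContDiff ℝ ∞ fun z : E n => ‖z - c‖ ^ 2 :=
  (contDiff_norm_sq ℂ).comp (contDiff_id.sub contDiff_const)

theorem rcmp_sm {P : E n → ℝ} (hP : ContDiff ℝ ∞ P) (c : E n) (a b : ℝ) :
    ContDiff ℝ ∞ fun z => P z + (a * ‖z - c‖ ^ 2 + b) :=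
  hP.add ((contDiff_const.mul (rcmp_sq c)).add contDiff_const)

theorem rcmp_tr {P : E n → ℝ} (hP : ContDiff ℝ ∞ P) (c y : E n) (a b : ℝ) (V : L n) :
    trL (fun z => P z + (a * ‖z - c‖ ^ 2 + b)) y V = trL P y V + a * hs V := by
  have h1 : ContDiffAt ℝ 2 (fun z : E n => ‖z - c‖ ^ 2) y := ((rcmp_sq c).of_le rcmp_le).contDiffAt
  rw [rt_add (hP.of_le rcmp_le).contDiffAt ((contDiffAt_const.mul h1).add contDiffAt_const),
    rt_add (contDiffAt_const.mul h1) contDiffAt_const, rt_mul a h1, rt_sq, rt_const, add_zero]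

theorem rcmp_dd (A B C : ℝ) : deriv (deriv fun s : ℝ => A + B * s + C * s ^ 2) 0 = 2 * C := by
  have h1 : (deriv fun s : ℝ => A + B * s + C * s ^ 2) = fun s => B + 2 * C * s := by
    funext s
    have h2 := (((hasDerivAt_id s).const_mul B).const_add A).fun_add
      (((hasDerivAt_id s).fun_pow 2).const_mul C)
    refine h2.deriv.trans ?_
    simp only [id]
    push_cast
    ring
  rw [h1]
  have h2 := (((hasDerivAt_id (0 : ℝ)).const_mul (2 * C)).const_add B).deriv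
  rw [mul_one] at h2
  exact h2

theorem rcmp_q (c : ℝ) (D : E n →L[ℝ] ℝ) (B : E n →L[ℝ] E n →L[ℝ] ℝ) :
    ContDiff ℝ ∞ (fun y => c + D y + B y y / 2) ∧
      ∀ y a, fderiv ℝ (fderiv ℝ fun y => c + D y + B y y / 2) y a a = B a a := by
  have h1 : ContDiff ℝ ∞ fun y => c + D y + B y y / 2 :=
    (contDiff_const.add D.contDiff).add ((B.contDiff.clm_apply contDiff_id).div_const 2)
  refine ⟨h1, fun y a => ?_⟩
  have h2 : (fun s : ℝ => c + D (y + s • a) + B (y + s • a) (y + s • a) / 2) = fun s =>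
      (c + D y + B y y / 2) + (D a + (B y a + B a y) / 2) * s + B a a / 2 * s ^ 2 := by
    funext s
    simp only [map_add, map_smul, ContinuousLinearMap.add_apply, ContinuousLinearMap.smul_apply,
      smul_eq_mul]
    ring
  rw [rl_line (h1.of_le rcmp_le).contDiffAt, h2, rcmp_dd]
  ring

theorem lam_lower {V : L n} (hV : 0 < hs V) {r : ℝ} (hr : 0 < r)
    {Λ : C(sphere (0 : E n) r, ℝ) →L[ℝ] ℝ} (hΛ : IsLam V r Λ) {f : E n → ℝ} (hf : Continuous f)
    {x : E n} {k : ℝ} (h : ∀ y ∈ ball x r, ∀ q, Tch f q y → k ≤ trL q y V)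
    (g : C(sphere (0 : E n) r, ℝ)) (hg : ∀ y, g y = f (x + y)) : f x + k * r ^ 2 / hs V ≤ Λ g := by
  refine le_of_forall_pos_le_add fun ε hε => ?_
  obtain ⟨u, hu, hd⟩ := dens hV hr g (half_pos hε)
  have hs1 : ContDiff ℝ ∞ fun z => u (z + -x) := hu.1.comp (contDiff_id.add contDiff_const)
  have h1 := vmax (w := fun z => u (z + -x) +
      (k / hs V * ‖z - x‖ ^ 2 + (ε / 2 - k / hs V * r ^ 2))) hV hf.continuousOn h
    (rcmp_sm hs1 x _ _) (fun y _ => by
      rw [rcmp_tr hs1, rt_shift, hu.2, zero_add, div_mul_cancel₀ _ hV.ne'])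
    (fun y hy => by
      have h2 : ‖y - x‖ = r := mem_sphere_iff_norm.1 hy
      have h3 := (abs_le.1 (hd ⟨y - x, mem_sphere_zero_iff_norm.2 h2⟩)).2
      rw [hg] at h3
      simp only [add_sub_cancel] at h3
      simp only [h2, ← sub_eq_add_neg]
      linarith) x (mem_closedBall_self hr.le)
  have h2 := (hΛ g u (-(ε / 2)) hu).2 fun y => by linarith [(abs_le.1 (hd y)).1]
  simp only [add_neg_cancel, sub_self, norm_zero] at h1
  have h3 : k * r ^ 2 / hs V = k / hs V * r ^ 2 := by ring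
  linarith

theorem tay_up {V : L n} (hV : 0 < hs V) {g : E n → ℝ} (hg : ContDiff ℝ ∞ g) (x : E n) {ε : ℝ}
    (hε : 0 < ε) : ∃ r₀ : ℝ, 0 < r₀ ∧ ∀ r, 0 < r → r ≤ r₀ → ∃ h, Hm V h ∧
      (∀ y, ‖y‖ = r → g (x + y) ≤ h y) ∧ h 0 = g x + (trL g x V + ε * hs V) * r ^ 2 / hs V := by
  have hu : ContDiff ℝ ∞ fun z => g (z + x) := hg.comp (contDiff_id.add contDiff_const)
  obtain ⟨C, hC, hT⟩ := taylor3 isOpen_univ (subset_univ _) hu.contDiffOn
  replace hT := (hT 0 (by simp)).2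
  obtain ⟨q1, q2⟩ := rcmp_q (g x) (fderiv ℝ (fun z => g (z + x)) 0)
    (fderiv ℝ (fderiv ℝ fun z => g (z + x)) 0)
  have q3 : ∀ y, trL (fun y => g x + fderiv ℝ (fun z => g (z + x)) 0 y +
      fderiv ℝ (fderiv ℝ fun z => g (z + x)) 0 y y / 2) y V = trL g x V := by
    intro y
    have h1 := rt_shift g x 0 V
    rw [zero_add] at h1
    rw [← h1]
    simp only [trL, levi, q2]
  refine ⟨min 4 (ε / C), lt_min (by norm_num) (by positivity), fun r hr hr0 => ⟨_,
    ⟨rcmp_sm q1 0 (ε - (trL g x V + ε * hs V) / hs V) ((trL g x V + ε * hs V) / hs V * r ^ 2),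
      fun y => ?_⟩, fun y hy => ?_, ?_⟩⟩
  · rw [rcmp_tr q1, q3, sub_mul, div_mul_cancel₀ _ hV.ne']
    ring
  · have h1 := hT y (by rw [zero_add, hy]; exact hr0.trans (min_le_left _ _))
    have h2 : r * C ≤ ε := (le_div_iff₀ (by linarith)).1 (hr0.trans (min_le_right _ _))
    have h3 := mul_le_mul_of_nonneg_right h2 (sq_nonneg r)
    simp only [zero_add, hy] at h1
    rw [add_comm x y, sub_zero, hy]
    linarith
  · simp only [map_zero, sub_zero, norm_zero]
    ring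

end Vale.Agent.P272.R
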