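import Vale.Agent.P272.F.Defs

/-! P272 F/R/Defs (owner helper71, frozen, no task): definitions for the block R. -/

open Metric Set Filter Topology Complex MeasureTheory
open scoped ContDiff

noncomputable section

namespace Vale.Agent.P272.R

variable {n : ℕ} {X : Type} [TopologicalSpace X]

/-- `q` is smooth and touches `f` from above at `y`, up to a constant. -/
def Tch (f q : E n → ℝ) (y : E n) : Prop :=
  (∀ᶠ z in 𝓝 y, ContDiffAt ℝ ∞ q z) ∧ IsLocalMax (fun z => f z - q z) y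

/-- The sup-convolution. -/
def sc (g : E n → ℝ) (e : ℝ) (y : E n) : ℝ :=
  sSup ((fun z => g z - ‖y - z‖ ^ 2 / e) '' closedBall 0 (7 / 2))

/-- Smooth solutions of `trL h y V = 0`. -/
def Hm (V : L n) (h : E n → ℝ) : Prop := ContDiff ℝ ∞ h ∧ ∀ y, trL h y V = 0

/-- Affine functions. -/
def affL (n : ℕ) : (ℝ × (E n →L[ℝ] ℝ)) →ₗ[ℝ] (E n → ℝ) where
  toFun p y := p.1 + p.2 y
  map_add' p q := by
    funext y
    simp only [Prod.fst_add, Prod.snd_add, ContinuousLinearMap.add_apply, Pi.add_apply]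
    ring
  map_smul' c p := by
    funext y
    simp only [Prod.smul_fst, Prod.smul_snd, ContinuousLinearMap.smul_apply, smul_eq_mul,
      RingHom.id_apply, Pi.smul_apply]
    ring

/-- Real polynomial functions of degree at most `m`. -/
def PS (n m : ℕ) : Submodule ℝ (E n → ℝ) := LinearMap.range (affL n) ^ m

/-- The functional `Λ` lies between the values at `0` of the solutions. -/
def IsLam (V : L n) (r : ℝ) (Λ : C(sphere (0 : E n) r, ℝ) →L[ℝ] ℝ) : Prop :=
  ∀ (g : C(sphere (0 : E n) r, ℝ)) (h : E n → ℝ) (c : ℝ), Hm V h →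
    ((∀ y, g y ≤ h y + c) → Λ g ≤ h 0 + c) ∧ ((∀ y : sphere (0 : E n) r, h y + c ≤ g y) → h 0 + c ≤ Λ g)

/-- The inequality at `x` in the chart `i`. -/
def IneqC {A : Atl n X} (θ ρ : A.Pot) (F : A.Rhs) (w : X → ℝ) (r t : ℝ) (x : X) (i : Fin A.N) :
    Prop :=
  ∀ V, F.F i (A.e i x) r V ≤ trL (θ.u i) (A.e i x) V + trL (A.loc w i) (A.e i x) V +
    t * trL (ρ.u i) (A.e i x) V

/-- The inequality at `x` in all charts. -/
def Ineq {A : Atl n X} (θ ρ : A.Pot) (F : A.Rhs) (w : X → ℝ) (r t : ℝ) (x : X) : Prop :=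
  ∀ i, x ∈ (A.e i).source → IneqC θ ρ F w r t x i

end Vale.Agent.P272.R
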