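import Vale.Agent.P272.F.R.Man

/-! P272 F/R/Glue (TASK). Helper names start with `rglue_`. `ψ = b⁻¹ log ∑ j, exp (b w j)`. `gibbs`: for a probability vector `a` with `a j = exp (s j) / ∑ exp (s i)`: `∑ a j * (t j - s j) ≤ log ∑ exp (t j) - log ∑ exp (s j)` (concavity of `log`, or `1 + x ≤ exp x` after subtracting the mean). So `loc ψ - ∑ a j * loc (w j)` has a global minimum at `e i x`, `rt_min`. With `C` from `sm_bd` (all `j`), `P = trL ρ`: good `j`: the inequality; other `j`: `F ≤ θ + w k + t / 2 P ≤ θ + w j + t / 2 P + 2 C P` and `a j ≤ exp (-b κ)`. Choose `b` with `card * exp (-b κ) * 2 C ≤ t / 2` and `log card ≤ b κ`, then `ψ x ≤ w i x + κ` for the largest `w i x`. -/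

open Metric Set Filter Topology Complex MeasureTheory
open scoped ContDiff

noncomputable section

namespace Vale.Agent.P272.R

variable {n : ℕ} {X : Type} [TopologicalSpace X] [T2Space X] [CompactSpace X] {A : Atl n X}

theorem gibbs {ι : Type} [Fintype ι] [Nonempty ι] (s t : ι → ℝ) :
    ∑ j, Real.exp (s j) / (∑ i, Real.exp (s i)) * (t j - s j) ≤
      Real.log (∑ i, Real.exp (t i)) - Real.log (∑ i, Real.exp (s i)) := by
  have hS : 0 < ∑ i, Real.exp (s i) := Finset.sum_pos (fun _ _ => Real.exp_pos _) Finset.univ_nonempty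
  have hT : 0 < ∑ i, Real.exp (t i) := Finset.sum_pos (fun _ _ => Real.exp_pos _) Finset.univ_nonempty
  have h1 : ∑ j, Real.exp (s j) / (∑ i, Real.exp (s i)) = 1 := by rw [← Finset.sum_div, div_self hS.ne']
  have h2 : ∑ j, Real.exp (t j) / (∑ i, Real.exp (t i)) = 1 := by rw [← Finset.sum_div, div_self hT.ne']
  generalize ∑ i, Real.exp (s i) = S at *
  generalize ∑ i, Real.exp (t i) = T at *
  have h3 : ∑ j, (Real.exp (s j) / S * (t j - s j) + Real.exp (s j) / S * (1 - (Real.log T - Real.log S))) ≤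
      ∑ j, Real.exp (t j) / T := Finset.sum_le_sum fun j _ => by
    have e : Real.exp (t j) / T =
        Real.exp (s j) / S * Real.exp (t j - s j - (Real.log T - Real.log S)) := by
      rw [Real.exp_sub, Real.exp_sub, Real.exp_sub, Real.exp_log hS, Real.exp_log hT]
      field_simp
    rw [e, ← mul_add]
    exact mul_le_mul_of_nonneg_left (by
      linarith [Real.add_one_le_exp (t j - s j - (Real.log T - Real.log S))]) (by positivity)
  rw [Finset.sum_add_distrib, ← Finset.sum_mul, h1, h2] at h3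
  linarith

theorem glue {θ ρ : A.Pot} (hρ : ρ.Pos) {F : A.Rhs} {w : Fin A.N → X → ℝ} (hw : ∀ j, A.Sm (w j))
    {κ t : ℝ} (hκ : 0 < κ) (ht : 0 < t) {G : Fin A.N → X → Prop}
    (hG : ∀ j x, G j x → ∀ i r, r ≤ w i x + κ → Ineq θ ρ F (w j) r (t / 2) x)
    (h : ∀ x, ∃ k, G k x ∧ ∀ j, G j x ∨ w j x ≤ w k x - κ) :
    ∃ ψ, Atl.Sub θ.u F.F ρ t ψ ∧ ∀ x j, w j x ≤ ψ x := by
  choose C hC hb using fun j => sm_bd hρ (hw j)
  obtain ⟨K, hK0, hK⟩ : ∃ K : ℝ, 0 ≤ K ∧ ∀ j, C j ≤ K :=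
    ⟨∑ j, C j, Finset.sum_nonneg fun j _ => (hC j).le, fun j =>
      Finset.single_le_sum (fun j _ => (hC j).le) (Finset.mem_univ j)⟩
  obtain ⟨b, hb0, hb1, hb2⟩ : ∃ b : ℝ, 0 < b ∧ (A.N : ℝ) ≤ Real.exp (b * κ) ∧
      A.N * (2 * K / Real.exp (b * κ)) ≤ t / 2 := by
    have h0 : (0 : ℝ) ≤ A.N * (4 * K) / t := by positivity
    have h1 := Real.add_one_le_exp (A.N + A.N * (4 * K) / t + 1)
    refine ⟨(A.N + A.N * (4 * K) / t + 1) / κ, by positivity, ?_, ?_⟩ <;>
      rw [div_mul_cancel₀ _ hκ.ne']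
    · linarith
    · have h2 : A.N * (4 * K) / t ≤ Real.exp (A.N + A.N * (4 * K) / t + 1) := by
        linarith [(Nat.cast_nonneg A.N : (0 : ℝ) ≤ _)]
      rw [div_le_iff₀ ht] at h2
      rw [← mul_div_assoc, div_le_iff₀ (Real.exp_pos _)]
      linarith
  have hpos : ∀ (_ : Fin A.N) (s : Fin A.N → ℝ), 0 < ∑ j, Real.exp (s j) := fun i s =>
    Finset.sum_pos (fun _ _ => Real.exp_pos _) ⟨i, Finset.mem_univ i⟩
  have hone : ∀ (s : Fin A.N → ℝ) j, Real.exp (s j) ≤ ∑ j, Real.exp (s j) := fun s j =>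
    Finset.single_le_sum (f := fun j => Real.exp (s j)) (fun j _ => (Real.exp_pos _).le)
      (Finset.mem_univ j)
  have hsm : A.Sm fun x => b⁻¹ * Real.log (∑ j, Real.exp (b * w j x)) := fun i =>
    contDiffOn_const.mul ((ContDiffOn.sum fun j _ => (contDiffOn_const.mul (hw j i)).exp).log
      fun y _ => (hpos i _).ne')
  refine ⟨_, ⟨hsm, fun i x V hx => ?_⟩, fun x j => ?_⟩
  swap
  · rw [le_inv_mul_iff₀ hb0, Real.le_log_iff_exp_le (hpos j _)]
    exact hone (fun j => b * w j x) j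
  have : Nonempty (Fin A.N) := ⟨i⟩
  obtain ⟨m, hm⟩ := Finite.exists_max fun j => w j x
  have h1 : b⁻¹ * Real.log (∑ j, Real.exp (b * w j x)) ≤ w m x + κ := by
    rw [inv_mul_le_iff₀ hb0, Real.log_le_iff_le_exp (hpos i _), mul_add, Real.exp_add]
    refine (Finset.sum_le_card_nsmul _ _ (Real.exp (b * w m x)) fun j _ =>
      Real.exp_le_exp.2 (mul_le_mul_of_nonneg_left (hm j) hb0.le)).trans ?_
    rw [Finset.card_univ, Fintype.card_fin, nsmul_eq_mul, mul_comm]
    exact mul_le_mul_of_nonneg_left hb1 (Real.exp_pos _).le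
  obtain ⟨a, ha⟩ : ∃ a : Fin A.N → ℝ, ∀ j,
      a j = Real.exp (b * w j x) / ∑ l, Real.exp (b * w l x) := ⟨_, fun _ => rfl⟩
  have ha0 : ∀ j, 0 ≤ a j := fun j => ha j ▸ div_nonneg (Real.exp_pos _).le (hpos i _).le
  have ha1 : ∑ j, a j = 1 := by
    simp only [ha]
    rw [← Finset.sum_div, div_self (hpos i _).ne']
  have hs : ∀ j ∈ Finset.univ, ContDiffAt ℝ 2 (fun y => a j * A.loc (w j) i y) (A.e i x) :=
    fun j _ => contDiffAt_const.mul (sm_at (hw j) hx)
  have h2 := rt_min ((sm_at hsm hx).sub (ContDiffAt.sum hs)) (Eventually.of_forall fun y => by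
    have h3 := mul_le_mul_of_nonneg_left (gibbs (fun j => b * w j x)
      fun j => b * w j ((A.e i).symm y)) (inv_pos.2 hb0).le
    simp only [← ha, ← mul_sub, mul_left_comm _ b, ← Finset.mul_sum] at h3
    simp only [← mul_assoc, mul_inv_cancel₀ hb0.ne', one_mul, mul_sub, Finset.sum_sub_distrib] at h3
    simp only [Atl.loc, (A.e i).left_inv hx]
    linarith) V
  rw [rt_sub (sm_at hsm hx) (ContDiffAt.sum hs), rt_sum _ hs,
    Finset.sum_congr rfl fun j _ => rt_mul (a j) (sm_at (hw j) hx) V] at h2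
  rw [rt_add (((θ.sm i).contDiffAt ((A.e i).open_target.mem_nhds ((A.e i).map_source hx))).of_le
    (WithTop.coe_le_coe.2 (le_top : (2 : ℕ∞) ≤ ⊤))) (sm_at hsm hx)]
  obtain ⟨k, hk, hj⟩ := h x
  have hP := (hb i i x V hx).1
  have hE : 0 ≤ 2 * K / Real.exp (b * κ) * trL (ρ.u i) (A.e i x) V := by positivity
  have h4 : ∑ j, a j * (F.F i (A.e i x) (b⁻¹ * Real.log (∑ j, Real.exp (b * w j x))) V -
      trL (θ.u i) (A.e i x) V - t / 2 * trL (ρ.u i) (A.e i x) V) ≤
      ∑ j, (a j * trL (A.loc (w j) i) (A.e i x) V +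
        2 * K / Real.exp (b * κ) * trL (ρ.u i) (A.e i x) V) := Finset.sum_le_sum fun j _ => by
    rcases hj j with g | g
    · nlinarith [hG j x g m _ h1 i hx V, ha0 j]
    · have h5 : a j ≤ 1 / Real.exp (b * κ) := by
        rw [ha, div_le_div_iff₀ (hpos i _) (Real.exp_pos _), one_mul, ← Real.exp_add]
        refine le_trans (Real.exp_le_exp.2 ?_) (hone (fun j => b * w j x) k)
        nlinarith
      have h6 := hG k x hk m _ h1 i hx V
      have h7 := (abs_le.1 ((hb j i x V hx).2.trans (mul_le_mul_of_nonneg_right (hK j) hP))).1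
      have h8 := (abs_le.1 ((hb k i x V hx).2.trans (mul_le_mul_of_nonneg_right (hK k) hP))).2
      have h9 := mul_le_mul_of_nonneg_right h5 (mul_nonneg hK0 hP)
      rw [div_eq_mul_one_div (2 * K)]
      nlinarith [ha0 j]
  rw [← Finset.sum_mul, ha1, Finset.sum_add_distrib, Finset.sum_const, Finset.card_univ,
    Fintype.card_fin, nsmul_eq_mul] at h4
  nlinarith [mul_le_mul_of_nonneg_right hb2 hP]

end Vale.Agent.P272.R
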