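import Vale.Agent.P272.F.R.Cmp

/-! P272 F/R/Heat (TASK). Helper names start with `rheat_`. `g = φ.normed volume ⋆[lsmul ℝ ℝ, volume] f` for `φ : ContDiffBump 0` with `rOut = s` (`HasCompactSupport.contDiff_convolution_left`, `ContDiffBump.integral_normed`, `nonneg_normed`, `support_normed_eq`); `g y = ∫ w, φ w * f (y - w)`. Case `hs V = 0`: `rt_zero`, and `f - K ‖z - y₀‖ ^ 2` has an interior maximum on `closedBall y₀ s` for `K` large, so `k ≤ 0`. Case `0 < hs V`: for `r ≤ min s r₀`, `G w = (y ↦ f (y₀ - w + y))` in `C(sphere 0 r, ℝ)` is continuous in `w` (`ContinuousMap.curry`), `lam_lower` at `x = y₀ - w`, multiply by `φ w`, integrate, `ContinuousLinearMap.integral_comp_comm` (also for `ContinuousMap.evalCLM`, or `ContinuousMap.integral_apply`), `tay_up`, `ε → 0`. -/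

open Metric Set Filter Topology Complex MeasureTheory
open scoped ContDiff

noncomputable section

namespace Vale.Agent.P272.R

variable {n : ℕ}

theorem rheat_zero {f : E n → ℝ} (hf : Continuous f) {s : ℝ} (hs0 : 0 < s) (y₀ : E n) :
    ∃ y ∈ ball y₀ s, ∃ q, Tch f q y := by
  have ne : (closedBall y₀ s).Nonempty := ⟨y₀, mem_closedBall_self hs0.le⟩
  obtain ⟨m, -, hm⟩ := (isCompact_closedBall y₀ s).exists_isMaxOn ne hf.continuousOn
  let q : E n → ℝ := fun z => (f m - f y₀ + 1) / s ^ 2 * ‖z - y₀‖ ^ 2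
  have sq : ContDiff ℝ ∞ q :=
    contDiff_const.mul ((contDiff_norm_sq ℂ).comp (contDiff_id.sub contDiff_const))
  obtain ⟨y, hy, h⟩ := (isCompact_closedBall y₀ s).exists_isMaxOn ne
    (hf.sub sq.continuous).continuousOn
  have hb : y ∈ ball y₀ s := by
    refine mem_ball.2 (lt_of_le_of_ne (mem_closedBall.1 hy) fun e => ?_)
    have h1 : f y₀ - q y₀ ≤ f y - q y := h (mem_closedBall_self hs0.le)
    have h2 : f y ≤ f m := hm hy
    rw [dist_eq_norm] at e
    simp only [q, e, sub_self, norm_zero, div_mul_cancel₀ _ (pow_pos hs0 2).ne'] at h1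
    norm_num at h1
    linarith
  exact ⟨y, hb, q, Eventually.of_forall fun z => sq.contDiffAt,
    h.isLocalMax (closedBall_mem_nhds_of_mem hb)⟩

theorem heat {f : E n → ℝ} (hf : Continuous f) {s : ℝ} (hs0 : 0 < s) : ∃ g : E n → ℝ,
    ContDiff ℝ ∞ g ∧ (∀ y c, (∀ z ∈ ball y s, f z ≤ c) → g y ≤ c) ∧
      (∀ y c, (∀ z ∈ ball y s, c ≤ f z) → c ≤ g y) ∧ ∀ (y₀ : E n) (V : L n) (k : ℝ),
      (∀ y ∈ ball y₀ (2 * s), ∀ q, Tch f q y → k ≤ trL q y V) → k ≤ trL g y₀ V := by
  borelize (E n)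
  let μ : Measure (E n) := Measure.addHaar
  let φ : ContDiffBump (0 : E n) := ⟨s / 2, s, half_pos hs0, half_lt_self hs0⟩
  have c0 : Continuous (φ.normed μ) := φ.continuous_normed
  have int : ∀ u : E n → ℝ, Continuous u → Integrable (fun w => φ.normed μ w • u w) μ :=
    fun u hu => (c0.smul hu).integrable_of_hasCompactSupport φ.hasCompactSupport_normed.smul_right
  have mono : ∀ u v : E n → ℝ, Continuous u → Continuous v → (∀ w ∈ ball (0 : E n) s, u w ≤ v w) →
      ∫ w, φ.normed μ w • u w ∂μ ≤ ∫ w, φ.normed μ w • v w ∂μ := fun u v hu hv h => by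
    refine integral_mono (int u hu) (int v hv) fun w => ?_
    by_cases hw : w ∈ ball (0 : E n) s
    · exact mul_le_mul_of_nonneg_left (h w hw) (φ.nonneg_normed w)
    · have : φ.normed μ w = 0 := Function.notMem_support.1 (by rwa [φ.support_normed_eq])
      simp only [this, zero_smul, le_refl]
  have cst : ∀ c : ℝ, ∫ w, φ.normed μ w • c ∂μ = c := fun c => φ.integral_normed_smul μ c
  have mem : ∀ y, ∀ w ∈ ball (0 : E n) s, y - w ∈ ball y s := fun y w hw => by
    simpa [dist_eq_norm] using hw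
  obtain ⟨g, sm, hg⟩ : ∃ g : E n → ℝ, ContDiff ℝ ∞ g ∧
      ∀ y, g y = ∫ w, φ.normed μ w • f (y - w) ∂μ :=
    ⟨_, φ.hasCompactSupport_normed.contDiff_convolution_left (ContinuousLinearMap.lsmul ℝ ℝ)
      φ.contDiff_normed (hf.locallyIntegrable (μ := μ)), fun y => convolution_lsmul⟩
  refine ⟨g, sm, fun y c h => ?_, fun y c h => ?_, fun y₀ V k h => ?_⟩
  · rw [hg, ← cst c]
    exact mono _ _ (by fun_prop) continuous_const fun w hw => h _ (mem y w hw)
  · rw [hg, ← cst c]
    exact mono _ _ continuous_const (by fun_prop) fun w hw => h _ (mem y w hw)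
  rcases (rt_hs V).eq_or_lt with hV | hV
  · obtain ⟨y, hy, q, hq⟩ := rheat_zero hf hs0 y₀
    have := h y (ball_subset_ball (by linarith) hy) q hq
    rwa [rt_zero hV.symm] at this ⊢
  refine le_of_forall_pos_le_add fun δ hδ => ?_
  obtain ⟨r₀, hr₀, hT⟩ := tay_up hV sm y₀ (div_pos hδ hV)
  have hr := lt_min hs0 hr₀
  obtain ⟨p, hp, p1, p2⟩ := hT _ hr (min_le_right _ _)
  obtain ⟨Λ, hΛ⟩ := exists_lam hV hr
  let G : C(E n, C(sphere (0 : E n) (min s r₀), ℝ)) :=
    ContinuousMap.curry ⟨fun z => f (y₀ - z.1 + z.2), by fun_prop⟩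
  have iG : Integrable (fun w => φ.normed μ w • G w) μ :=
    (c0.smul G.continuous).integrable_of_hasCompactSupport φ.hasCompactSupport_normed.smul_right
  have a1 := mono (fun w => f (y₀ - w) + k * min s r₀ ^ 2 / hs V) (fun w => Λ (G w)) (by fun_prop)
    (by fun_prop) fun w hw => lam_lower hV hr hΛ hf (fun y hy => h y (by
      have b1 := mem_ball.1 (mem y₀ w hw)
      have b2 := (mem_ball.1 hy).trans_le (min_le_left _ _)
      exact (dist_triangle y (y₀ - w) y₀).trans_lt (by linarith))) _ fun y => rfl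
  have a2 := (hΛ (∫ w, φ.normed μ w • G w ∂μ) p 0 hp).1 fun y => by
    rw [ContinuousMap.integral_apply iG, add_zero]
    refine le_trans (le_of_eq ?_) (p1 y (mem_sphere_zero_iff_norm.1 y.2))
    rw [hg]
    refine integral_congr_ae (Eventually.of_forall fun w => ?_)
    change φ.normed μ w • f (y₀ - w + y) = φ.normed μ w • f (y₀ + y - w)
    rw [sub_add_eq_add_sub]
  simp only [smul_add] at a1
  rw [integral_add (int _ (by fun_prop)) (int _ continuous_const), ← hg, cst] at a1
  simp only [← Λ.integral_comp_comm iG, map_smul] at a2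
  rw [p2, div_mul_cancel₀ _ hV.ne', add_zero] at a2
  have a3 := le_of_add_le_add_left (a1.trans a2)
  rwa [div_le_div_iff_of_pos_right hV, mul_le_mul_iff_left₀ (pow_pos hr 2)] at a3

end Vale.Agent.P272.R
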