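import Vale.Agent.P272.F.R.Dir

/-! P272 F/R/Lam (TASK). Helper names start with `rlam_`. `dens`: Stone-Weierstrass (`ContinuousMap.exists_mem_subalgebra_near_continuousMap_of_separatesPoints`) for the subalgebra of the `φ` with `∃ m, ∃ p ∈ PS n m, ∀ y, φ y = p y` (real linear functionals separate points: `y ↦ re ⟪a, y⟫`, or `SeparatingDual.exists_separating_of_ne`), then `dirP`.
`exists_lam`: `lam g = sInf {h 0 | Hm V h, g ≤ h on the sphere}`; `Hm V` is closed under `+`, `-`, constants and scalars; by `hm_max`, `h' ≤ h` on the sphere gives `h' 0 ≤ h 0`; so both inequalities of `IsLam` hold for `lam`, hence `|g - h| ≤ ε` gives `|lam g - h 0| ≤ ε`; additivity and homogeneity by `dens` and `∀ ε`; `LinearMap.mkContinuous` with bound `1` (`h = 0`). -/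

open Metric Set Filter Topology Complex MeasureTheory
open scoped ContDiff

noncomputable section

namespace Vale.Agent.P272.R

variable {n : ℕ}

/-- Restrictions of polynomial functions to the sphere. -/
def rlam_alg (n : ℕ) (r : ℝ) : Subalgebra ℝ C(sphere (0 : E n) r, ℝ) where
  carrier := {φ | ∃ m, ∃ p ∈ PS n m, ∀ y, φ y = p y}
  mul_mem' := by
    rintro a b ⟨m, p, hp, ha⟩ ⟨m', p', hp', hb⟩
    exact ⟨m + m', p * p', ps_mul hp hp', fun y => by
      rw [ContinuousMap.mul_apply, Pi.mul_apply, ha, hb]⟩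
  add_mem' := by
    rintro a b ⟨m, p, hp, ha⟩ ⟨m', p', hp', hb⟩
    exact ⟨m + m', p + p', add_mem (ps_mono (Nat.le_add_right _ _) hp)
      (ps_mono (Nat.le_add_left _ _) hp'), fun y => by
      rw [ContinuousMap.add_apply, Pi.add_apply, ha, hb]⟩
  algebraMap_mem' c := ⟨0, fun _ => c, ps_const c, fun y => by simp⟩

theorem rlam_sep (n : ℕ) (r : ℝ) : (rlam_alg n r).SeparatesPoints := by
  intro x y hxy
  have hne : (x : E n) ≠ y := fun h => hxy (Subtype.ext h)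
  obtain ⟨l, hl⟩ := SeparatingDual.exists_separating_of_ne (R := ℝ) hne
  refine ⟨fun z => l z, ⟨⟨fun z => l z, l.continuous.comp continuous_subtype_val⟩, ?_, rfl⟩, hl⟩
  exact ⟨1, fun z => l z, ps_lin l, fun _ => rfl⟩

theorem dens {V : L n} (hV : 0 < hs V) {r : ℝ} (hr : 0 < r) (g : C(sphere (0 : E n) r, ℝ)) {ε : ℝ}
    (hε : 0 < ε) : ∃ h, Hm V h ∧ ∀ y : sphere (0 : E n) r, |g y - h y| ≤ ε := by
  obtain ⟨⟨φ, m, p, hp, hφ⟩, hn⟩ :=
    ContinuousMap.exists_mem_subalgebra_near_continuousMap_of_separatesPoints (rlam_alg n r)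
      (rlam_sep n r) g ε hε
  obtain ⟨h, hh, he⟩ := dirP hV hr hp
  refine ⟨h, hh, fun y => ?_⟩
  have h1 : ‖(φ - g) y‖ ≤ ‖φ - g‖ := ContinuousMap.norm_coe_le_norm _ _
  have h2 : ‖(y : E n)‖ = r := by simp
  rw [ContinuousMap.sub_apply, Real.norm_eq_abs, abs_sub_comm, hφ, ← he _ h2] at h1
  exact h1.trans hn.le

theorem rlam_two {V : L n} {h : E n → ℝ} (hh : Hm V h) (y : E n) : ContDiffAt ℝ 2 h y :=
  hh.1.contDiffAt.of_le (WithTop.coe_le_coe.mpr (le_top : (2 : ℕ∞) ≤ ⊤))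

theorem rlam_add {V : L n} {h k : E n → ℝ} (hh : Hm V h) (hk : Hm V k) :
    Hm V fun z => h z + k z :=
  ⟨hh.1.add hk.1, fun y => by
    rw [rt_add (rlam_two hh y) (rlam_two hk y), hh.2, hk.2, add_zero]⟩

theorem rlam_sub {V : L n} {h k : E n → ℝ} (hh : Hm V h) (hk : Hm V k) :
    Hm V fun z => h z - k z :=
  ⟨hh.1.sub hk.1, fun y => by
    rw [rt_sub (rlam_two hh y) (rlam_two hk y), hh.2, hk.2, sub_zero]⟩

theorem rlam_mul {V : L n} {h : E n → ℝ} (c : ℝ) (hh : Hm V h) : Hm V fun z => c * h z :=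
  ⟨contDiff_const.mul hh.1, fun y => by rw [rt_mul c (rlam_two hh y), hh.2, mul_zero]⟩

theorem rlam_const (V : L n) (c : ℝ) : Hm V fun _ => c :=
  ⟨contDiff_const, fun _ => rt_const c V⟩

theorem rlam_cmp {V : L n} (hV : 0 < hs V) {r : ℝ} (hr : 0 < r) {h k : E n → ℝ} (hh : Hm V h)
    (hk : Hm V k) (hle : ∀ y : sphere (0 : E n) r, h y ≤ k y) : h 0 ≤ k 0 := by
  have h1 := hm_max hV (rlam_sub hh hk) (c := 0) hr (fun y hy => by
    have := hle ⟨y, by simpa using hy⟩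
    simpa using this) 0 (by simpa using hr.le)
  simpa using h1

/-- The values at `0` of the solutions above `g`. -/
def rlam_S (V : L n) (r : ℝ) (g : C(sphere (0 : E n) r, ℝ)) : Set ℝ :=
  {a | ∃ h, Hm V h ∧ (∀ y : sphere (0 : E n) r, g y ≤ h y) ∧ a = h 0}

theorem rlam_ne (V : L n) (r : ℝ) (g : C(sphere (0 : E n) r, ℝ)) : (rlam_S V r g).Nonempty :=
  ⟨‖g‖, fun _ => ‖g‖, rlam_const V _, fun y =>
    (le_abs_self _).trans (ContinuousMap.norm_coe_le_norm g y), rfl⟩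

theorem rlam_lb {V : L n} (hV : 0 < hs V) {r : ℝ} (hr : 0 < r) {g : C(sphere (0 : E n) r, ℝ)}
    {h : E n → ℝ} {c : ℝ} (hh : Hm V h) (hle : ∀ y : sphere (0 : E n) r, h y + c ≤ g y) :
    h 0 + c ∈ lowerBounds (rlam_S V r g) := by
  rintro a ⟨k, hk, hg, rfl⟩
  exact rlam_cmp hV hr (rlam_add hh (rlam_const V c)) hk fun y => (hle y).trans (hg y)

theorem rlam_bdd {V : L n} (hV : 0 < hs V) {r : ℝ} (hr : 0 < r) (g : C(sphere (0 : E n) r, ℝ)) :
    BddBelow (rlam_S V r g) := by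
  refine ⟨_, rlam_lb hV hr (c := -‖g‖) (rlam_const V 0) fun y => ?_⟩
  have h1 : |g y| ≤ ‖g‖ := ContinuousMap.norm_coe_le_norm g y
  have := (abs_le.mp h1).1
  linarith

theorem rlam_up {V : L n} (hV : 0 < hs V) {r : ℝ} (hr : 0 < r) {g : C(sphere (0 : E n) r, ℝ)}
    {h : E n → ℝ} {c : ℝ} (hh : Hm V h) (hle : ∀ y : sphere (0 : E n) r, g y ≤ h y + c) :
    sInf (rlam_S V r g) ≤ h 0 + c :=
  csInf_le (rlam_bdd hV hr g) ⟨fun z => h z + c, rlam_add hh (rlam_const V c), hle, rfl⟩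

theorem rlam_lo {V : L n} (hV : 0 < hs V) {r : ℝ} (hr : 0 < r) {g : C(sphere (0 : E n) r, ℝ)}
    {h : E n → ℝ} {c : ℝ} (hh : Hm V h) (hle : ∀ y : sphere (0 : E n) r, h y + c ≤ g y) :
    h 0 + c ≤ sInf (rlam_S V r g) :=
  le_csInf (rlam_ne V r g) fun _ ha => rlam_lb hV hr hh hle ha

theorem rlam_near {V : L n} (hV : 0 < hs V) {r : ℝ} (hr : 0 < r) {g : C(sphere (0 : E n) r, ℝ)}
    {h : E n → ℝ} {c : ℝ} (hh : Hm V h) (hle : ∀ y : sphere (0 : E n) r, |g y - h y| ≤ c) :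
    |sInf (rlam_S V r g) - h 0| ≤ c := by
  have h1 := rlam_up hV hr (c := c) hh fun y => by
    have := (abs_le.mp (hle y)).2
    linarith
  have h2 := rlam_lo hV hr (c := -c) hh fun y => by
    have := (abs_le.mp (hle y)).1
    linarith
  rw [abs_le]
  constructor <;> linarith

theorem rlam_eps {a K : ℝ} (hK : 0 ≤ K) (h : ∀ ε, 0 < ε → |a| ≤ K * ε) : a = 0 := by
  refine abs_nonpos_iff.mp (le_of_forall_pos_le_add fun ε hε => ?_)
  have h1 := h (ε / (K + 1)) (by positivity)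
  have h2 : K * (ε / (K + 1)) ≤ ε := by
    rw [← mul_div_assoc, div_le_iff₀ (by positivity)]
    nlinarith
  linarith

/-- The functional as a linear map. -/
def rlam_lin {V : L n} (hV : 0 < hs V) {r : ℝ} (hr : 0 < r) :
    C(sphere (0 : E n) r, ℝ) →ₗ[ℝ] ℝ where
  toFun g := sInf (rlam_S V r g)
  map_add' g₁ g₂ := by
    refine sub_eq_zero.mp (rlam_eps (K := 4) (by norm_num) fun ε hε => ?_)
    obtain ⟨h₁, hh₁, e₁⟩ := dens hV hr g₁ hε
    obtain ⟨h₂, hh₂, e₂⟩ := dens hV hr g₂ hε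
    have a₁ := abs_le.mp (rlam_near hV hr hh₁ e₁)
    have a₂ := abs_le.mp (rlam_near hV hr hh₂ e₂)
    have a₃ := abs_le.mp (rlam_near hV hr (g := g₁ + g₂) (c := 2 * ε) (rlam_add hh₁ hh₂) fun y => by
      have b₁ := abs_le.mp (e₁ y)
      have b₂ := abs_le.mp (e₂ y)
      rw [ContinuousMap.add_apply, abs_le]
      constructor <;> linarith [b₁.1, b₁.2, b₂.1, b₂.2])
    rw [abs_le]
    constructor <;> linarith [a₁.1, a₁.2, a₂.1, a₂.2, a₃.1, a₃.2]
  map_smul' c g := by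
    refine sub_eq_zero.mp (rlam_eps (K := 2 * |c|) (by positivity) fun ε hε => ?_)
    obtain ⟨h, hh, e⟩ := dens hV hr g hε
    have a₁ := rlam_near hV hr hh e
    have a₃ := rlam_near hV hr (g := c • g) (c := |c| * ε) (rlam_mul c hh) fun y => by
      rw [ContinuousMap.smul_apply, smul_eq_mul, ← mul_sub, abs_mul]
      exact mul_le_mul_of_nonneg_left (e y) (abs_nonneg c)
    have a₂ : |c * sInf (rlam_S V r g) - c * h 0| ≤ |c| * ε := by
      rw [← mul_sub, abs_mul]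
      exact mul_le_mul_of_nonneg_left a₁ (abs_nonneg c)
    have b₂ := abs_le.mp a₂
    have b₃ := abs_le.mp a₃
    simp only [RingHom.id_apply, smul_eq_mul]
    rw [abs_le]
    constructor <;> linarith [b₂.1, b₂.2, b₃.1, b₃.2]

theorem exists_lam {V : L n} (hV : 0 < hs V) {r : ℝ} (hr : 0 < r) : ∃ Λ, IsLam V r Λ := by
  refine ⟨(rlam_lin hV hr).mkContinuous 1 fun g => ?_, fun g h c hh =>
    ⟨fun hle => rlam_up hV hr hh hle, fun hle => rlam_lo hV hr hh hle⟩⟩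
  have h1 := rlam_near hV hr (g := g) (c := ‖g‖) (rlam_const V 0) fun y => by
    rw [sub_zero]
    exact ContinuousMap.norm_coe_le_norm g y
  rw [sub_zero] at h1
  rw [one_mul]
  exact h1

end Vale.Agent.P272.R
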