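import Vale.Agent.P272.F.R.Tr
import Vale.Agent.P272.F.P.Lv
import Vale.Agent.P272.F.P.LComp
import Vale.Agent.P272.F.P.Ext

/-! P272 F/R/Man (TASK). Helper names start with `rman_`. You may add `import Vale.Agent.P272.F.Kit.Main` (h70: `levi_comp`, `exists_cut`, smooth transitions, bounds for `ρ`) and use its lemmas. `sm_levi`: `loc w k = loc w j ∘ (e j ∘ symm k)` near `e k x`, `levi_comp`. `rho_lo`: compactness of `closedBall 0 4 × sphere`, homogeneity of `levi`. `sm_bd`: chart `j` with norm `< 1` (`A.cov`), `rt_bd`, `rho_lo`, transport with `sm_levi`, `ρ.cmp`. `ineq_of`: `F.cmp`, `θ.cmp`, `ρ.cmp`, `sm_levi` with `tr j i x * V`. `sm_ext`: `w x = χ x * v (e j x) + (1 - χ x) * c` with `χ` from `exists_cut A j (5/2) 3` (smooth: near a point of `In j 3` the function `v ∘ e j` is smooth in every chart, elsewhere `w = c` locally). -/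

open Metric Set Filter Topology Complex MeasureTheory
open scoped ContDiff

noncomputable section

namespace Vale.Agent.P272.R

variable {n : ℕ} {X : Type} [TopologicalSpace X] [T2Space X] [CompactSpace X] {A : Atl n X}

lemma rman_smul (u : E n → ℝ) (y a : E n) (t : ℝ) : levi u y (t • a) = t ^ 2 * levi u y a := by
  unfold levi
  rw [smul_comm I t a]
  simp only [map_smul, smul_apply, smul_eq_mul]
  ring

lemma rman_lo {u : E n → ℝ} {U : Set (E n)} (hU : IsOpen U) (h4 : closedBall 0 4 ⊆ U)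
    (hu : ContDiffOn ℝ ∞ u U) (hp : ∀ y ∈ U, ∀ a, a ≠ 0 → 0 < levi u y a) :
    ∃ c : ℝ, 0 < c ∧ ∀ y a : E n, ‖y‖ ≤ 4 → c * ‖a‖ ^ 2 ≤ levi u y a := by
  have hK : IsCompact (closedBall (0 : E n) 4 ×ˢ sphere (0 : E n) 1) :=
    (isCompact_closedBall _ _).prod (isCompact_sphere _ _)
  have hc : ContinuousOn (fun p : E n × E n => levi u p.1 p.2)
      (closedBall (0 : E n) 4 ×ˢ sphere (0 : E n) 1) := by
    intro p hp
    have h0 : ContDiffAt ℝ ∞ u p.1 := hu.contDiffAt (hU.mem_nhds (h4 hp.1))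
    have h1 : ContinuousAt (fun q : E n × E n => fderiv ℝ (fderiv ℝ u) q.1) p :=
      ContinuousAt.comp (g := fderiv ℝ (fderiv ℝ u))
        ((h0.fderiv_right (m := ∞) le_rfl).fderiv_right (m := ∞) le_rfl).continuousAt
        continuousAt_fst
    have h2 : ContinuousAt (fun q : E n × E n => I • q.2) p := continuousAt_snd.const_smul I
    exact ((((h1.clm_apply continuousAt_snd).clm_apply continuousAt_snd).add
      ((h1.clm_apply h2).clm_apply h2)).div_const _).continuousWithinAt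
  obtain ⟨c, hc0, hc1⟩ := hK.exists_forall_le' hc (a := 0) fun p hq => hp _ (h4 hq.1) _ (by
    rintro h
    have := mem_sphere_zero_iff_norm.1 hq.2
    rw [h, norm_zero] at this
    exact zero_ne_one this)
  refine ⟨c, hc0, fun y a hy => ?_⟩
  by_cases ha : a = 0
  · subst ha
    simp [levi]
  · have hn : 0 < ‖a‖ := norm_pos_iff.2 ha
    have h1 := hc1 (y, ‖a‖⁻¹ • a) ⟨mem_closedBall_zero_iff.2 hy, mem_sphere_zero_iff_norm.2 (by
      rw [norm_smul, norm_inv, norm_norm, inv_mul_cancel₀ hn.ne'])⟩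
    have h2 : levi u y a = ‖a‖ ^ 2 * levi u y (‖a‖⁻¹ • a) := by
      rw [rman_smul, ← mul_assoc, ← mul_pow, mul_inv_cancel₀ hn.ne', one_pow, one_mul]
    rw [h2, mul_comm]
    exact mul_le_mul_of_nonneg_left h1 (sq_nonneg _)

theorem rcut (A : Atl n X) (j : Fin A.N) : ∃ χ : X → ℝ, A.Sm χ ∧ (∀ x, 0 ≤ χ x ∧ χ x ≤ 1) ∧
    (∀ x, A.In j 1 x → χ x = 1) ∧ ∀ x, ¬ A.In j 2 x → χ x = 0 := by
  let b : ContDiffBump (0 : E n) := ⟨1, 2, by norm_num, by norm_num⟩
  have hK : IsCompact (closedBall (0 : E n) 2) := isCompact_closedBall _ _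
  have hKt : closedBall (0 : E n) 2 ⊆ (A.e j).target :=
    (closedBall_subset_closedBall (by norm_num)).trans (A.tgt j)
  have hz : ∀ y : E n, y ∉ closedBall (0 : E n) 2 → b y = 0 := fun y hy =>
    b.zero_of_le_dist (le_of_lt (not_le.1 hy))
  have hb : ContDiff ℝ ∞ b := b.contDiff
  refine ⟨A.ext j b, fun k => P272.sm_ext hK hKt hb.contDiffOn (fun y _ hy => hz y hy) k,
    fun x => ?_, fun x hx => ?_, fun x hx => ?_⟩
  · by_cases hx : x ∈ (A.e j).source
    · rw [ext_of_mem _ hx]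
      exact ⟨b.nonneg, b.le_one⟩
    · rw [ext_of_notMem _ hx]
      exact ⟨le_rfl, zero_le_one⟩
  · rw [ext_of_mem _ hx.1]
    exact b.one_of_mem_closedBall (mem_closedBall_zero_iff.2 hx.2)
  · by_cases hs : x ∈ (A.e j).source
    · rw [ext_of_mem _ hs]
      exact hz _ fun h => hx ⟨hs, mem_closedBall_zero_iff.1 h⟩
    · exact ext_of_notMem _ hs

theorem sm_at {w : X → ℝ} (hw : A.Sm w) {i : Fin A.N} {x : X} (hx : x ∈ (A.e i).source) :
    ContDiffAt ℝ 2 (A.loc w i) (A.e i x) := by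
  exact (pv_at hw hx).of_le (by norm_cast)

theorem sm_levi {w : X → ℝ} (hw : A.Sm w) {j k : Fin A.N} {x : X} (hj : x ∈ (A.e j).source)
    (hk : x ∈ (A.e k).source) (a : E n) :
    levi (A.loc w k) (A.e k x) a = levi (A.loc w j) (A.e j x) (A.tr j k x a) := by
  have e : A.loc w k =ᶠ[𝓝 (A.e k x)] A.loc w j ∘ (A.e j ∘ (A.e k).symm) := by
    have hc : ContinuousAt (A.e k).symm (A.e k x) :=
      (A.e k).continuousAt_symm ((A.e k).map_source hk)
    have hm : (A.e j).source ∈ 𝓝 ((A.e k).symm (A.e k x)) := by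
      rw [(A.e k).left_inv hk]
      exact (A.e j).open_source.mem_nhds hj
    filter_upwards [hc.eventually hm] with z hz
    exact (pv_loc w hz).symm
  have e2 : (A.e j ∘ (A.e k).symm) (A.e k x) = A.e j x := congrArg (A.e j) ((A.e k).left_inv hk)
  rw [pv_levi_congr e, pv_levi_comp (Atl.tr_analytic hj hk) (e2 ▸ sm_at hw hj), e2]
  rfl

theorem rho_lo {ρ : A.Pot} (hρ : ρ.Pos) : ∃ C : ℝ, 0 < C ∧ ∀ j (y a : E n), ‖y‖ ≤ 4 →
    ‖a‖ ^ 2 ≤ C * levi (ρ.u j) y a := by
  choose c hc0 hc using fun j => rman_lo (A.e j).open_target (A.tgt j) (ρ.sm j) (hρ j)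
  obtain ⟨M, hM⟩ := Finite.exists_le fun j => (c j)⁻¹
  refine ⟨max M 1, lt_max_of_lt_right one_pos, fun j y a hy => ?_⟩
  have h1 := hc j y a hy
  have h2 : 0 ≤ levi (ρ.u j) y a := le_trans (mul_nonneg (hc0 j).le (sq_nonneg _)) h1
  calc ‖a‖ ^ 2 = (c j)⁻¹ * (c j * ‖a‖ ^ 2) := by
        rw [← mul_assoc, inv_mul_cancel₀ (hc0 j).ne', one_mul]
    _ ≤ (c j)⁻¹ * levi (ρ.u j) y a := mul_le_mul_of_nonneg_left h1 (inv_pos.2 (hc0 j)).le
    _ ≤ _ := mul_le_mul_of_nonneg_right ((hM j).trans (le_max_left _ _)) h2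

theorem sm_bd {ρ : A.Pot} (hρ : ρ.Pos) {w : X → ℝ} (hw : A.Sm w) : ∃ C : ℝ, 0 < C ∧
    ∀ i x V, x ∈ (A.e i).source → 0 ≤ trL (ρ.u i) (A.e i x) V ∧
      |trL (A.loc w i) (A.e i x) V| ≤ C * trL (ρ.u i) (A.e i x) V := by
  obtain ⟨C, hC0, hC⟩ := rho_lo hρ
  choose D hD0 hD using fun j => rt_bd (A.e j).open_target (A.tgt j) (hw j)
  obtain ⟨M, hM⟩ := Finite.exists_le D
  have key : ∀ i x a, x ∈ (A.e i).source → 0 ≤ levi (ρ.u i) (A.e i x) a ∧
      |levi (A.loc w i) (A.e i x) a| ≤ max M 1 * C * levi (ρ.u i) (A.e i x) a := by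
    intro i x a hi
    obtain ⟨j, hj, h1⟩ := A.cov x
    have h4 : ‖A.e j x‖ ≤ 4 := by linarith
    rw [sm_levi hw hj hi, ρ.cmp j i x hj hi]
    have h2 := hC j _ (A.tr j i x a) h4
    refine ⟨(mul_nonneg_iff_of_pos_left hC0).1 ((sq_nonneg _).trans h2), (hD j _ h4 _).trans ?_⟩
    rw [mul_assoc]
    exact mul_le_mul ((hM j).trans (le_max_left _ _)) h2 (sq_nonneg _)
      (zero_le_one.trans (le_max_right _ _))
  refine ⟨max M 1 * C, mul_pos (lt_max_of_lt_right one_pos) hC0, fun i x V hi =>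
    ⟨Finset.sum_nonneg fun l _ => (key i x _ hi).1, ?_⟩⟩
  unfold trL
  rw [Finset.mul_sum]
  exact (Finset.abs_sum_le_sum_abs _ _).trans (Finset.sum_le_sum fun l _ => (key i x _ hi).2)

theorem ineq_of {θ ρ : A.Pot} {F : A.Rhs} {w : X → ℝ} (hw : A.Sm w) {r t : ℝ} {x : X}
    {j : Fin A.N} (hj : x ∈ (A.e j).source) (h : IneqC θ ρ F w r t x j) : Ineq θ ρ F w r t x := by
  intro i hi V
  have e1 : ∀ τ : A.Pot, trL (τ.u i) (A.e i x) V = trL (τ.u j) (A.e j x) (A.tr j i x * V) :=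
    fun τ => Finset.sum_congr rfl fun l _ => τ.cmp j i x hj hi _
  have e2 : trL (A.loc w i) (A.e i x) V = trL (A.loc w j) (A.e j x) (A.tr j i x * V) :=
    Finset.sum_congr rfl fun l _ => sm_levi hw hj hi _
  rw [F.cmp j i x r V hj hi, e1 θ, e1 ρ, e2]
  exact h _

theorem sm_ext (j : Fin A.N) {v : E n → ℝ} (hv : ContDiff ℝ ∞ v) (c : ℝ) : ∃ w : X → ℝ, A.Sm w ∧
    (∀ x, A.In j 2 x → A.loc w j =ᶠ[𝓝 (A.e j x)] v) ∧
    ∀ x, w x ≤ c ∨ (A.In j 3 x ∧ w x ≤ v (A.e j x)) := by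
  let b : ContDiffBump (0 : E n) := ⟨5 / 2, 3, by norm_num, by norm_num⟩
  have hK : IsCompact (closedBall (0 : E n) 3) := isCompact_closedBall _ _
  have hKt : closedBall (0 : E n) 3 ⊆ (A.e j).target :=
    (closedBall_subset_closedBall (by norm_num)).trans (A.tgt j)
  have hz : ∀ y : E n, y ∉ closedBall (0 : E n) 3 → b y = 0 := fun y hy =>
    b.zero_of_le_dist (le_of_lt (not_le.1 hy))
  have hb : ContDiff ℝ ∞ b := b.contDiff
  refine ⟨fun x => c + A.ext j (fun y => b y * (v y - c)) x, fun k => ?_, fun x hx => ?_,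
    fun x => ?_⟩
  · exact contDiffOn_const.add (P272.sm_ext (g := fun y => b y * (v y - c)) hK hKt
      (hb.mul (hv.sub contDiff_const)).contDiffOn (fun y _ hy => by rw [hz y hy, zero_mul]) k)
  · have h1 : ∀ᶠ z in 𝓝 (A.e j x), ‖z‖ < 5 / 2 :=
      continuous_norm.continuousAt.eventually_lt continuousAt_const (by linarith [hx.2])
    filter_upwards [h1] with z hz1
    have h2 : z ∈ (A.e j).target := hKt (mem_closedBall_zero_iff.2 (by linarith))
    have h3 : b z = 1 := b.one_of_mem_closedBall (mem_closedBall_zero_iff.2 hz1.le)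
    change c + A.ext j (fun y => b y * (v y - c)) ((A.e j).symm z) = v z
    rw [ext_of_mem _ ((A.e j).map_target h2), (A.e j).right_inv h2, h3]
    ring
  · by_cases hs : x ∈ (A.e j).source
    · simp only [ext_of_mem _ hs]
      have h0 : 0 ≤ b (A.e j x) := b.nonneg
      have h1 : b (A.e j x) ≤ 1 := b.le_one
      by_cases h3 : ‖A.e j x‖ ≤ 3
      · rcases le_total (v (A.e j x)) c with h | h
        · left
          nlinarith
        · right
          exact ⟨⟨hs, h3⟩, by nlinarith⟩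
      · left
        rw [hz _ fun h => h3 (mem_closedBall_zero_iff.1 h), zero_mul, add_zero]
    · left
      simp only [ext_of_notMem _ hs, add_zero, le_refl]

end Vale.Agent.P272.R
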