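import Vale.Agent.P272.F.R.Tr

/-! P272 F/R/Poly (TASK). Helper names start with `rpoly_`. `PS n (m + 1) = PS n m * range affL` (`pow_succ`, `Submodule.mul_induction_on`), `PS n 0 = 1` (`Submodule.mem_one`: constants). `ps_fin`: `Submodule.FG.pow`, `Module.Finite.iff_fg`. `ps_mul`: `pow_add`, `Submodule.mul_mem_mul`. `ps_der`: induction, product rule (for degree 0 the derivative is `0`; prove first the version `f ∈ PS n m → derivative ∈ PS n (m - 1)` or treat `m = 0` by hand). `ps_trL`: `fderiv (fderiv f) y a a = fderiv (fun z => fderiv f z a) y a` (`fderiv_clm_apply`). `ps_sq`: `‖y‖ ^ 2 = ∑ i, ((y i).re ^ 2 + (y i).im ^ 2)` (`EuclideanSpace.norm_sq_eq`), `Complex.reCLM.comp ((EuclideanSpace.proj i).restrictScalars ℝ)`. -/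

open Metric Set Filter Topology Complex MeasureTheory
open scoped ContDiff

noncomputable section

namespace Vale.Agent.P272.R

variable {n : ℕ}

variable {m : ℕ} {f g : E n → ℝ}

theorem rpoly_succ (n m : ℕ) : PS n (m + 1) = PS n m * LinearMap.range (affL n) := pow_succ _ _

theorem rpoly_one (n : ℕ) : PS n 1 = LinearMap.range (affL n) := pow_one _

theorem ps_fin (n m : ℕ) : FiniteDimensional ℝ (PS n m) :=
  Module.Finite.iff_fg.2 ((Module.Finite.iff_fg.1 inferInstance).pow m)

theorem ps_mul {m' : ℕ} (hf : f ∈ PS n m) (hg : g ∈ PS n m') : f * g ∈ PS n (m + m') := by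
  rw [PS, pow_add]
  exact Submodule.mul_mem_mul hf hg

theorem rpoly_up (hf : f ∈ PS n m) : f ∈ PS n (m + 1) := by
  have h : (1 : E n → ℝ) ∈ PS n 1 := by
    rw [rpoly_one]
    exact ⟨(1, 0), funext fun y => by simp [affL]⟩
  simpa only [mul_one] using ps_mul hf h

theorem ps_const (c : ℝ) : (fun _ => c) ∈ PS n m := by
  induction m with
  | zero =>
    rw [PS, pow_zero]
    exact Submodule.mem_one.2 ⟨c, rfl⟩
  | succ m ih => exact rpoly_up ih

theorem ps_lin (l : E n →L[ℝ] ℝ) : (fun y => l y) ∈ PS n 1 := by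
  rw [rpoly_one]
  exact ⟨(0, l), funext fun y => by simp [affL]⟩

theorem ps_mono {m' : ℕ} (h : m ≤ m') : PS n m ≤ PS n m' := by
  induction h with
  | refl => exact le_rfl
  | step _ ih => exact fun f hf => rpoly_up (ih hf)

theorem rpoly_aff (p : ℝ × (E n →L[ℝ] ℝ)) (y : E n) : HasFDerivAt (affL n p) p.2 y :=
  p.2.hasFDerivAt.const_add p.1

theorem ps_an (hf : f ∈ PS n m) : AnalyticOnNhd ℝ f univ := by
  induction m generalizing f with
  | zero =>
    rw [PS, pow_zero] at hf
    obtain ⟨c, rfl⟩ := Submodule.mem_one.1 hf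
    exact analyticOnNhd_const (v := c)
  | succ m ih =>
    rw [rpoly_succ] at hf
    refine Submodule.mul_induction_on hf (fun p hp l hl => ?_) fun p q hp hq => hp.add hq
    obtain ⟨r, rfl⟩ := hl
    exact (ih hp).mul ((analyticOnNhd_const (v := r.1)).add (r.2.analyticOnNhd univ))

theorem ps_sm (hf : f ∈ PS n m) : ContDiff ℝ ∞ f := (ps_an hf).contDiff

theorem ps_der (hf : f ∈ PS n (m + 1)) (a : E n) : (fun y => fderiv ℝ f y a) ∈ PS n m := by
  induction m generalizing f with
  | zero =>
    rw [zero_add, rpoly_one] at hf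
    obtain ⟨r, rfl⟩ := hf
    simp only [(rpoly_aff r _).fderiv]
    exact ps_const _
  | succ m ih =>
    rw [rpoly_succ] at hf
    refine (Submodule.mul_induction_on (C := fun f : E n → ℝ => Differentiable ℝ f ∧
      (fun y => fderiv ℝ f y a) ∈ PS n (m + 1)) hf (fun p hp l hl => ?_)
      fun p q hp hq => ⟨hp.1.add hq.1, ?_⟩).2
    · have hl' : l ∈ PS n 1 := by rwa [rpoly_one]
      obtain ⟨r, rfl⟩ := hl
      have hd : Differentiable ℝ p := (ps_sm hp).differentiable (by simp)
      refine ⟨hd.mul fun y => (rpoly_aff r y).differentiableAt, ?_⟩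
      have e : (fun y => fderiv ℝ (p * affL n r) y a) =
          r.2 a • p + (fun y => fderiv ℝ p y a) * affL n r := by
        funext y
        rw [((hd y).hasFDerivAt.mul (rpoly_aff r y)).fderiv]
        simp only [ContinuousLinearMap.add_apply, ContinuousLinearMap.smul_apply, smul_eq_mul,
          Pi.add_apply, Pi.smul_apply, Pi.mul_apply]
        ring
      rw [e]
      exact add_mem (Submodule.smul_mem _ _ hp) (ps_mul (ih hp) hl')
    · have e : (fun y => fderiv ℝ (p + q) y a) =
          (fun y => fderiv ℝ p y a) + fun y => fderiv ℝ q y a := by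
        funext y
        rw [fderiv_add (hp.1 y) (hq.1 y)]
        rfl
      rw [e]
      exact add_mem hp.2 hq.2

theorem rpoly_two (hf : f ∈ PS n (m + 2)) (a : E n) :
    (fun y => fderiv ℝ (fderiv ℝ f) y a a) ∈ PS n m := by
  have hd : Differentiable ℝ (fderiv ℝ f) :=
    ((ps_sm hf).fderiv_right (m := ∞) le_rfl).differentiable (by simp)
  have e : (fun y => fderiv ℝ (fderiv ℝ f) y a a) =
      fun y => fderiv ℝ (fun z => fderiv ℝ f z a) y a := by
    funext y
    rw [fderiv_clm_apply (hd y) (differentiableAt_const a)]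
    simp
  rw [e]
  exact ps_der (ps_der hf a) a

theorem ps_trL (hf : f ∈ PS n (m + 2)) (V : L n) : (fun y => trL f y V) ∈ PS n m := by
  have e : (fun y => trL f y V) = ∑ i, (1 / 4 : ℝ) •
      ((fun y => fderiv ℝ (fderiv ℝ f) y (V (eb i)) (V (eb i))) +
        fun y => fderiv ℝ (fderiv ℝ f) y (I • V (eb i)) (I • V (eb i))) := by
    funext y
    simp only [trL, levi, Finset.sum_apply, Pi.smul_apply, Pi.add_apply, smul_eq_mul]
    exact Finset.sum_congr rfl fun i _ => by ring
  rw [e]
  exact Submodule.sum_mem _ fun i _ =>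
    Submodule.smul_mem _ _ (add_mem (rpoly_two hf _) (rpoly_two hf _))

theorem ps_sq (r : ℝ) : (fun y : E n => ‖y‖ ^ 2 - r ^ 2) ∈ PS n 2 := by
  have h1 : ∀ i, (fun y : E n => (y i).re) ∈ PS n 1 := fun i =>
    ps_lin (Complex.reCLM.comp ((EuclideanSpace.proj (𝕜 := ℂ) i).restrictScalars ℝ))
  have h2 : ∀ i, (fun y : E n => (y i).im) ∈ PS n 1 := fun i =>
    ps_lin (Complex.imCLM.comp ((EuclideanSpace.proj (𝕜 := ℂ) i).restrictScalars ℝ))
  have e : (fun y : E n => ‖y‖ ^ 2 - r ^ 2) =
      ∑ i, ((fun y : E n => (y i).re) * (fun y : E n => (y i).re) +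
        (fun y : E n => (y i).im) * fun y : E n => (y i).im) - fun _ => r ^ 2 := by
    funext y
    simp only [EuclideanSpace.norm_sq_eq, Finset.sum_apply, Pi.sub_apply, Pi.add_apply,
      Pi.mul_apply, Complex.sq_norm, Complex.normSq_apply]
  rw [e]
  exact sub_mem (Submodule.sum_mem _ fun i _ =>
    add_mem (ps_mul (h1 i) (h1 i)) (ps_mul (h2 i) (h2 i))) (ps_const _)

end Vale.Agent.P272.R
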