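import Vale.Agent.P272.F.R.Lev

/-! P272 F/R/Three (TASK). Helper names start with `rthree_`. `rl_log`: `rl_line` for `a = z - y` and `I • a`: the functions are `log ((1 + s) ^ 2 ‖a‖ ^ 2)` and `log ((1 + s ^ 2) ‖a‖ ^ 2)`, second derivatives `-2` and `2`.
`three`: `q w = m + (C + 1) R ^ 2 + a * (log (‖w - y‖ ^ 2) - log (s ^ 2)) - (C + 1) ‖w - y‖ ^ 2`, `a = 2 K / log (R ^ 2 / s ^ 2)`; `w - q` is usc on the compact shell `s ≤ ‖w - y‖ ≤ R` (`UpperSemicontinuousOn.exists_isMaxOn`), an interior maximum contradicts `h` with `a = z - y` (`levi q = -(C + 1) ‖a‖ ^ 2`), on both spheres `w ≤ q`. -/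

open Metric Set Filter Topology Complex MeasureTheory
open scoped ContDiff

noncomputable section

namespace Vale.Agent.P272.R

variable {n : ℕ}

theorem rthree_dd {f f' : ℝ → ℝ} {c : ℝ} (h : ∀ᶠ s in 𝓝 (0 : ℝ), HasDerivAt f (f' s) s)
    (h' : HasDerivAt f' c 0) : deriv (deriv f) 0 = c :=
  (EventuallyEq.deriv_eq (h.mono fun _ hs => hs.deriv)).trans h'.deriv

theorem rthree_sm {y z : E n} (h : z ≠ y) :
    ContDiffAt ℝ ∞ (fun w : E n => ‖w - y‖ ^ 2) z ∧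
      ContDiffAt ℝ ∞ (fun w : E n => Real.log (‖w - y‖ ^ 2)) z :=
  have h1 : ContDiffAt ℝ ∞ (fun w : E n => ‖w - y‖ ^ 2) z :=
    (contDiffAt_id.sub contDiffAt_const).norm_sq ℂ
  ⟨h1, h1.log (pow_ne_zero 2 (norm_ne_zero_iff.2 (sub_ne_zero.2 h)))⟩

theorem rl_log {y z : E n} (h : z ≠ y) : levi (fun w => Real.log (‖w - y‖ ^ 2)) z (z - y) = 0 := by
  have hA0 : ‖z - y‖ ≠ 0 := norm_ne_zero_iff.2 (sub_ne_zero.2 h)
  have hA : ‖z - y‖ ^ 2 ≠ 0 := pow_ne_zero 2 hA0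
  have hs : ContDiffAt ℝ 2 (fun w : E n => Real.log (‖w - y‖ ^ 2)) z :=
    (rthree_sm h).2.of_le (WithTop.coe_le_coe.2 (le_top : (2 : ℕ∞) ≤ ⊤))
  have e1 : (fun s : ℝ => Real.log (‖z + s • (z - y) - y‖ ^ 2)) =
      fun s => Real.log ((1 + s) ^ 2 * ‖z - y‖ ^ 2) := funext fun s => by
    rw [show z + s • (z - y) - y = (1 + s) • (z - y) by module, norm_smul, mul_pow,
      Real.norm_eq_abs, sq_abs]
  have e2 : (fun s : ℝ => Real.log (‖z + s • (I • (z - y)) - y‖ ^ 2)) =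
      fun s => Real.log ((1 + s ^ 2) * ‖z - y‖ ^ 2) := funext fun s => by
    rw [show z + s • (I • (z - y)) - y = (((1 : ℝ) : ℂ) + s * I) • (z - y) by
      rw [add_smul, ofReal_one, one_smul, mul_smul, Complex.coe_smul, add_sub_right_comm],
      norm_smul, mul_pow, Complex.sq_norm, normSq_add_mul_I, one_pow]
  have d1 : deriv (deriv fun s : ℝ => Real.log ((1 + s) ^ 2 * ‖z - y‖ ^ 2)) 0 = -2 := by
    refine rthree_dd (f' := fun s => 2 * (1 + s)⁻¹) ?_ ?_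
    · filter_upwards [lt_mem_nhds (show (-1 : ℝ) < 0 by norm_num)] with s hs
      have h1 : 1 + s ≠ 0 := by linarith
      refine (((((hasDerivAt_id' s).const_add 1).fun_pow 2).mul_const (‖z - y‖ ^ 2)).log
        (mul_ne_zero (pow_ne_zero 2 h1) hA)).congr_deriv ?_
      field_simp
      ring
    · exact ((((hasDerivAt_id' (0 : ℝ)).const_add 1).fun_inv (by norm_num)).const_mul 2).congr_deriv
        (by norm_num)
  have d2 : deriv (deriv fun s : ℝ => Real.log ((1 + s ^ 2) * ‖z - y‖ ^ 2)) 0 = 2 := by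
    refine rthree_dd (f' := fun s => 2 * s / (1 + s ^ 2)) (Eventually.of_forall fun s => ?_) ?_
    · have h1 : 1 + s ^ 2 ≠ 0 := by positivity
      refine (((((hasDerivAt_id' s).fun_pow 2).const_add 1).mul_const (‖z - y‖ ^ 2)).log
        (mul_ne_zero h1 hA)).congr_deriv ?_
      field_simp
      ring
    · exact (((hasDerivAt_id' (0 : ℝ)).const_mul 2).fun_div
        (((hasDerivAt_id' (0 : ℝ)).fun_pow 2).const_add 1) (by norm_num)).congr_deriv (by norm_num)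
  rw [levi, rl_line hs, rl_line hs, e1, e2, d1, d2]
  norm_num

theorem three {w : E n → ℝ} {y : E n} {R s K C m : ℝ} (hs0 : 0 < s) (hsR : s < R) (hC : 0 ≤ C)
    (hu : UpperSemicontinuousOn w (closedBall y R)) (hb : ∀ z ∈ closedBall y R, |w z| ≤ K)
    (h : ∀ z ∈ ball y R, ∀ q, Tch w q z → ∀ a, -C * ‖a‖ ^ 2 ≤ levi q z a)
    (hm : ∀ z ∈ closedBall y s, w z ≤ m) {z : E n} (h1 : s ≤ ‖z - y‖) (h2 : ‖z - y‖ ≤ R) :
    w z ≤ m + (C + 1) * R ^ 2 +
      2 * K * (Real.log (‖z - y‖ ^ 2 / s ^ 2) / Real.log (R ^ 2 / s ^ 2)) := by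
  have hy := hb y (mem_closedBall_self (by linarith))
  have hK : 0 ≤ K := (abs_nonneg _).trans hy
  have hm0 : -K ≤ m := (abs_le.1 hy).1.trans (hm y (mem_closedBall_self hs0.le))
  have hsR' : s ^ 2 < R ^ 2 := pow_lt_pow_left₀ hsR hs0.le two_ne_zero
  have hL : 0 < Real.log (R ^ 2 / s ^ 2) := Real.log_pos ((one_lt_div (by positivity)).2 hsR')
  obtain ⟨a, ha⟩ : ∃ a, a = 2 * K / Real.log (R ^ 2 / s ^ 2) := ⟨_, rfl⟩
  have ha' : a * (Real.log (R ^ 2) - Real.log (s ^ 2)) = 2 * K := by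
    rw [← Real.log_div (pow_pos (hs0.trans hsR) 2).ne' (by positivity), ha,
      div_mul_cancel₀ _ hL.ne']
  obtain ⟨q, hq⟩ : ∃ q : E n → ℝ,
    q = fun p => a * Real.log (‖p - y‖ ^ 2) - (C + 1) * ‖p - y‖ ^ 2 := ⟨_, rfl⟩
  have hne : ∀ p : E n, s ≤ ‖p - y‖ → p ≠ y := fun p hp e => by
    rw [e, sub_self, norm_zero] at hp
    linarith
  have hsm : ∀ p ≠ y, ContDiffAt ℝ ∞ q p := fun p hp => hq ▸
    (contDiffAt_const.mul (rthree_sm hp).2).sub (contDiffAt_const.mul (rthree_sm hp).1)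
  have hmem : ∀ p : E n, p ∈ closedBall y R \ ball y s ↔ ‖p - y‖ ≤ R ∧ s ≤ ‖p - y‖ := fun p => by
    rw [Set.mem_sdiff, mem_closedBall_iff_norm, mem_ball_iff_norm, not_lt]
  obtain ⟨p, hp, hmax⟩ := UpperSemicontinuousOn.exists_isMaxOn (f := fun p => w p + -q p)
    ⟨z, (hmem z).2 ⟨h2, h1⟩⟩ ((isCompact_closedBall y R).diff isOpen_ball)
    ((hu.mono sdiff_subset).add (ContinuousOn.upperSemicontinuousOn fun p hp =>
      (hsm p (hne p ((hmem p).1 hp).2)).continuousAt.neg.continuousWithinAt))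
  obtain ⟨p1, p2⟩ := (hmem p).1 hp
  have h3 : w z + -q z ≤ w p + -q p := hmax ((hmem z).2 ⟨h2, h1⟩)
  have h4 : w p + -q p ≤ m + (C + 1) * R ^ 2 - a * Real.log (s ^ 2) := by
    rcases p2.eq_or_lt with e | p2'
    · have := hm p (mem_closedBall_iff_norm.2 e.ge)
      have := mul_le_mul_of_nonneg_left hsR'.le (show 0 ≤ C + 1 by linarith)
      simp only [hq, ← e]
      linarith
    rcases p1.eq_or_lt with e | p1'
    · have := (abs_le.1 (hb p hp.1)).2
      simp only [hq, e]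
      linarith
    have hpy := hne p p2
    have h5 := h p (mem_ball_iff_norm.2 p1') q ⟨(eventually_ne_nhds hpy).mono hsm,
      (hmax.isLocalMax (mem_of_superset (((continuous_id.sub continuous_const).norm.isOpen_preimage _
        isOpen_Ioo).mem_nhds ⟨p2', p1'⟩) fun x hx => (hmem x).2 ⟨hx.2.le, hx.1.le⟩)).congr
          (Eventually.of_forall fun x => (sub_eq_add_neg _ _).symm)⟩ (p - y)
    have le2 : (2 : WithTop ℕ∞) ≤ ∞ := WithTop.coe_le_coe.2 (le_top : (2 : ℕ∞) ≤ ⊤)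
    have s1 := (rthree_sm hpy).1.of_le le2
    have s2 := (rthree_sm hpy).2.of_le le2
    rw [hq, rl_sub (contDiffAt_const.mul s2) (contDiffAt_const.mul s1), rl_mul _ s2, rl_mul _ s1,
      rl_log hpy, rl_sq] at h5
    have := pow_pos (hs0.trans p2') 2
    linarith
  have h6 : 0 ≤ (C + 1) * ‖z - y‖ ^ 2 := by positivity
  rw [← mul_div_assoc, mul_div_right_comm, ← ha,
    Real.log_div (pow_pos (hs0.trans_le h1) 2).ne' (by positivity)]
  simp only [hq] at h3 h4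
  linarith

end Vale.Agent.P272.R
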